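/-
Row 258, block [S2] (outer.tex, architect helper145).  PACKED FILE (parts: Ker, Ker2, Ker1, Ker3, ModelDefs); each part keeps its original header.
-/
import Claimed.Agent.R258.Pack005
import Claimed.Agent.R258.Pack011
import Claimed.Agent.R258.Gev.Conv
import Claimed.Agent.R258.Gev.S2

set_option autoImplicit false

/-! ## Part Ker -/

/-
Row 258, block [S2] (outer.tex, architect helper145).  THE MODEL KERNEL: definitions.
Packages: P-S2-KER1 (`Ker1.lean`: `s2_ker1_exists`), P-S2-KER2 (`Ker2.lean`: `s2_ker_of_ker1`), P-S2-KER3 (`Ker3.lean`: `s2w_admissible`).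

DESIGN (simplification of the paper's "recover the continuous kernel").
* `R` = Gevrey step (block [GEV]): `R = 0` on `(-∞,1/4]`, `R = 1` on `[5/12,∞)`.
  `ω(X) = R(X) - R(X - 1/3)`: support in `[1/4,3/4]`, and `∑_n ω^{(k)}(X - n/3)` telescopes to `R^{(k)}(X + big) - R^{(k)}(X - big) = [k = 0]`.
* `B(S) = R(1/2 - 6 S) R(1/2 + 6 S)`: even, `= 1` for `|S| ≤ 1/72`, support in `|S| ≤ 1/24`.  `Φ₀(S) = S³ B(S)`, odd, `χ := Φ₀'''` is even, smooth,
  supported in `|S| ≤ 1/24`, `χ = 6` near `0`.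
* `Φ(S) = ∫_1^2 b^{-4} Φ₀(b S) db`: smooth, support in `|S| ≤ 1/24`, `Φ^{(n)}(S) = ∫_1^2 b^{n-4} Φ₀^{(n)}(b S) db` (so `|Φ^{(n)}| ≤ 2^n sup |Φ₀^{(n)}|`) and
  `S Φ''''(S) = ∫_1^2 S Φ₀''''(b S) db = χ(2S) - χ(S)`: an EXACT dyadic Calderon formula, so that NO average over dilations of the grid is needed later:
  `∑_{s0 ≤ s < s0+N} 2^s Φ''''(2^s t) = (χ(2^{s0+N} t) - χ(2^{s0} t)) / t`.
* `W = ∏_{j=0}^3 (∂_S - j ∂_X) [ω(X) Φ(S)] = ω Φ'''' - 6 ω' Φ''' + 11 ω'' Φ'' - 6 ω''' Φ'`.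
  Its support lies in `[1/4,3/4] × [-1/24,1/24]`, so all `X + j S ∈ [1/8,7/8]`: the rescaled kernel sits in ONE standard cell with margin `c0 = 1/8`.
  Marginals: `W(u - jS, S) = d/dS [V_j(u - jS, S)]`, `V_j = ∑_k c_{j,k} ω^{(k)} ⊗ Φ^{(3-k)}` with
  `c_0 = (1,-6,11,-6)`, `c_1 = (1,-5,6,0)`, `c_2 = (1,-4,3,0)`, `c_3 = (1,-3,2,0)`; `integral_eq_zero_of_hasDerivAt_of_integrable`.
* The translates by `n/3` are obtained later from the standard grid translated by `σ 2^{-s0}/3`, `σ ∈ Fin 3` (`Model.lean`).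
-/

section
open MeasureTheory
open scoped ENNReal ContDiff

namespace Claimed.Agent.R258

/-- The one-dimensional data of the model kernel (`Gev s B A` = the Gevrey class of block [GEV], `R258/Gev/Defs.lean`). -/
structure S2Ker1 (s : ℕ) (B A : ℝ) (om Φ χ : ℝ → ℝ) : Prop where
  A_nonneg : 0 ≤ A
  om_gev : Gev s B A om
  om_supp : ∀ X, om X ≠ 0 → 1 / 4 ≤ X ∧ X ≤ 3 / 4
  om_part : ∀ (k : ℕ) (X : ℝ) (F : Finset ℤ),
    (∀ n : ℤ, 1 / 4 ≤ X - (n : ℝ) / 3 → X - (n : ℝ) / 3 ≤ 3 / 4 → n ∈ F) →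
      ∑ n ∈ F, iteratedDeriv k om (X - (n : ℝ) / 3) = if k = 0 then 1 else 0
  ph_gev : Gev s B A Φ
  ph_supp : ∀ S, Φ S ≠ 0 → |S| ≤ 1 / 24
  chi_smooth : ContDiff ℝ ∞ χ
  chi_supp : ∀ S, χ S ≠ 0 → |S| ≤ 1 / 24
  chi_even : ∀ S, χ (-S) = χ S
  chi_zero : χ 0 ≠ 0
  calderon : ∀ S, iteratedDeriv 4 Φ S = (χ (2 * S) - χ S) / S

/-- `W = ∏_{j=0}^3 (∂_S - j ∂_X) [om ⊗ Φ]` -/
noncomputable def s2W (om Φ : ℝ → ℝ) (p : ℝ × ℝ) : ℂ :=
  ((om p.1 * iteratedDeriv 4 Φ p.2 - 6 * (iteratedDeriv 1 om p.1 * iteratedDeriv 3 Φ p.2)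
    + 11 * (iteratedDeriv 2 om p.1 * iteratedDeriv 2 Φ p.2)
    - 6 * (iteratedDeriv 3 om p.1 * iteratedDeriv 1 Φ p.2) : ℝ) : ℂ)

/-- The properties of the model kernel on the unit cell used by the outer reduction. -/
structure S2Ker (C0 : ℝ) (W : ℝ × ℝ → ℂ) (χ : ℝ → ℝ) : Prop where
  C0_ge : 1 ≤ C0
  smooth : ContDiff ℝ ∞ W
  supp : ∀ p : ℝ × ℝ, W p ≠ 0 → (1 / 4 ≤ p.1 ∧ p.1 ≤ 3 / 4) ∧ |p.2| ≤ 1 / 24
  marg : ∀ (u : ℝ) (j : Fin 4), ∫ t : ℝ, W (u - (j : ℝ) * t, t) = 0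
  gev : ∀ (n : ℕ) (p : ℝ × ℝ),
    ‖iteratedFDeriv ℝ n W p‖ ≤ (C0 * ((n : ℝ) + 2)) ^ (C0 * ((n : ℝ) + 2))
  part : ∀ (X S : ℝ) (F : Finset ℤ),
    (∀ n : ℤ, 1 / 4 ≤ X - (n : ℝ) / 3 → X - (n : ℝ) / 3 ≤ 3 / 4 → n ∈ F) →
      ∑ n ∈ F, W (X - (n : ℝ) / 3, S) = (((χ (2 * S) - χ S) / S : ℝ) : ℂ)
  chi_smooth : ContDiff ℝ ∞ χ
  chi_supp : ∀ S, χ S ≠ 0 → |S| ≤ 1 / 24
  chi_even : ∀ S, χ (-S) = χ S
  chi_zero : χ 0 ≠ 0

/-- the model kernel transported to the cell `I` -/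
noncomputable def s2w (W : ℝ × ℝ → ℂ) (I : Cell) (p : ℝ × ℝ) : ℂ :=
  W ((p.1 - I.left) / I.len, p.2 / I.len)

end Claimed.Agent.R258
end

/-! ## Part Ker2 -/

/-
Row 258, block [S2] (outer.tex, architect helper145), package P-S2-KER2: the two-dimensional model kernel `s2W om Φ` has the properties `S2Ker`.

PROOF NOTES.  Write `a_k = iteratedDeriv k om`, `b_k = iteratedDeriv k Φ`; all are smooth (`ContDiff.iterate_deriv`, `iteratedDeriv_eq_iterate`), `deriv a_k = a_{k+1}` (`iteratedDeriv_succ`).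
* `smooth`: `Complex.ofRealCLM.contDiff.comp`, products of `a_k ∘ fst`, `b_k ∘ snd`.
* `supp`: `a_k X ≠ 0 → 1/4 ≤ X ≤ 3/4`: off the closed interval `om` vanishes on a neighbourhood, so all derivatives vanish (`Filter.EventuallyEq.iteratedDeriv_eq`); same for `Φ`.
* `marg`: `W (u - j S, S) = d/dS [V_j (S)]`, `V_j S = ∑_k c_{j,k} a_k (u - j S) b_{3-k} (S)`, with `c_0 = (1,-6,11,-6)`, `c_1 = (1,-5,6,0)`, `c_2 = (1,-4,3,0)`, `c_3 = (1,-3,2,0)`
  (check: `d/dS [a_k(u - jS) b_m(S)] = -j a_{k+1} b_m + a_k b_{m+1}`); `V_j` and its derivative are continuous with compact support (`|S| ≤ 1/24`), hence integrable;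
  `integral_eq_zero_of_hasDerivAt_of_integrable`; `integral_ofReal` for the cast to `ℂ`; `fin_cases j`.
* `gev`: `‖iteratedFDeriv ℝ n (fun p => a p.1 * b p.2) p‖ ≤ ∑_{i ≤ n} (n choose i) sup|a^{(i)}| sup|b^{(n-i)}|` (`norm_iteratedFDeriv_mul_le`; `ContinuousLinearMap.iteratedFDeriv_comp_right` +
  `ContinuousMultilinearMap.norm_compContinuousLinearMap_le` for `fst`, `snd` of norm `≤ 1`; `norm_iteratedFDeriv_eq_norm_iteratedDeriv`); `iteratedDeriv i (iteratedDeriv k om) = iteratedDeriv (i + k) om`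
  (`iteratedDeriv_iteratedDeriv`-type, or `Function.iterate_add`); the cast `ℝ → ℂ` is a linear isometry (`LinearIsometry.norm_iteratedFDeriv_comp_left`).  Total:
  `≤ 24 * 2^n * (C (n+6))^(2 C (n+6)) ≤ (C0 (n+2))^(C0 (n+2))`, e.g. with `C0 = 6 C + 30` (`n + 6 ≤ 3 (n+2)`; `Real.rpow_le_rpow_of_exponent_le`, `Real.rpow_le_rpow`).
  If block [GEV] (R258/Gev/) provides the tensor lemma, use it.
* `part`: `S2Ker1.om_part` with `k = 0,1,2,3` (`Finset.sum_add_distrib`, `Finset.mul_sum`, `Finset.sum_mul`) and `S2Ker1.calderon`.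
-/

section
open MeasureTheory
open scoped ENNReal ContDiff

namespace Claimed.Agent.R258

theorem s2_iter_contDiff {f : ℝ → ℝ} (hf : ContDiff ℝ ∞ f) (k : ℕ) : ContDiff ℝ ∞ (iteratedDeriv k f) := by
  rw [iteratedDeriv_eq_iterate]
  exact hf.iterate_deriv k

theorem s2_iter_hasDerivAt {f : ℝ → ℝ} (hf : ContDiff ℝ ∞ f) (k : ℕ) (x : ℝ) :
    HasDerivAt (iteratedDeriv k f) (iteratedDeriv (k + 1) f x) x := by
  rw [iteratedDeriv_succ]
  exact ((s2_iter_contDiff hf k).differentiable (by simp)).differentiableAt.hasDerivAt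

/-- derivatives vanish off a closed set containing the support -/
theorem s2_iter_eq_zero {f : ℝ → ℝ} {S : Set ℝ} (hS : IsClosed S) (hsupp : ∀ x, f x ≠ 0 → x ∈ S) {x : ℝ}
    (hx : x ∉ S) (k : ℕ) : iteratedDeriv k f x = 0 := by
  rw [iteratedDeriv_eq_iteratedFDeriv, gev_iteratedFDeriv_eq_zero hS hsupp hx k]
  rfl

/-- the real kernel -/
noncomputable def s2Wr (om Φ : ℝ → ℝ) (p : ℝ × ℝ) : ℝ :=
  om p.1 * iteratedDeriv 4 Φ p.2 - 6 * (iteratedDeriv 1 om p.1 * iteratedDeriv 3 Φ p.2)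
    + 11 * (iteratedDeriv 2 om p.1 * iteratedDeriv 2 Φ p.2)
    - 6 * (iteratedDeriv 3 om p.1 * iteratedDeriv 1 Φ p.2)

theorem s2W_eq (om Φ : ℝ → ℝ) (p : ℝ × ℝ) : s2W om Φ p = ((s2Wr om Φ p : ℝ) : ℂ) := rfl

/-- the primitive of `S ↦ W (u - c S, S)` -/
noncomputable def s2V (om Φ : ℝ → ℝ) (u c S : ℝ) : ℝ :=
  iteratedDeriv 0 om (u - c * S) * iteratedDeriv 3 Φ S
    + (c - 6) * (iteratedDeriv 1 om (u - c * S) * iteratedDeriv 2 Φ S)
    + (11 + c * (c - 6)) * (iteratedDeriv 2 om (u - c * S) * iteratedDeriv 1 Φ S)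
    + (-6 + c * (11 + c * (c - 6))) * (iteratedDeriv 3 om (u - c * S) * iteratedDeriv 0 Φ S)

theorem s2V_hasDerivAt {om Φ : ℝ → ℝ} (hom : ContDiff ℝ ∞ om) (hΦ : ContDiff ℝ ∞ Φ) (u c : ℝ)
    (hc : c * (c - 1) * (c - 2) * (c - 3) = 0) (S : ℝ) :
    HasDerivAt (s2V om Φ u c) (s2Wr om Φ (u - c * S, S)) S := by
  have hin : HasDerivAt (fun S : ℝ => u - c * S) (-c) S := by
    have := ((hasDerivAt_id S).const_mul c).const_sub u
    simpa using this
  have ha : ∀ k : ℕ, HasDerivAt (fun S : ℝ => iteratedDeriv k om (u - c * S))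
      (iteratedDeriv (k + 1) om (u - c * S) * (-c)) S := fun k =>
    HasDerivAt.comp (h₂ := iteratedDeriv k om) (h := fun S : ℝ => u - c * S) S
      (s2_iter_hasDerivAt hom k (u - c * S)) hin
  have hb : ∀ k : ℕ, HasDerivAt (iteratedDeriv k Φ) (iteratedDeriv (k + 1) Φ S) S := fun k =>
    s2_iter_hasDerivAt hΦ k S
  have h := ((((ha 0).mul (hb 3)).add (((ha 1).mul (hb 2)).const_mul (c - 6))).add
    (((ha 2).mul (hb 1)).const_mul (11 + c * (c - 6)))).add
    (((ha 3).mul (hb 0)).const_mul (-6 + c * (11 + c * (c - 6))))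
  refine (h.congr_deriv ?_).congr_of_eventuallyEq (Filter.Eventually.of_forall fun S => ?_)
  · unfold s2Wr
    simp only [iteratedDeriv_zero]
    linear_combination (-(iteratedDeriv 4 om (u - c * S) * Φ S)) * hc
  · unfold s2V
    simp only [Pi.add_apply, Pi.mul_apply]

theorem s2_ph_iter_zero {s : ℕ} {B A : ℝ} {om Φ χ : ℝ → ℝ} (h : S2Ker1 s B A om Φ χ) {S : ℝ}
    (hS : ¬ |S| ≤ 1 / 24) (k : ℕ) : iteratedDeriv k Φ S = 0 := by
  refine s2_iter_eq_zero (S := Set.Icc (-(1 / 24 : ℝ)) (1 / 24)) isClosed_Icc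
    (fun x hx => abs_le.1 (h.ph_supp x hx)) (fun hmem => hS (abs_le.2 hmem)) k

theorem s2_om_iter_zero {s : ℕ} {B A : ℝ} {om Φ χ : ℝ → ℝ} (h : S2Ker1 s B A om Φ χ) {X : ℝ}
    (hX : ¬ (1 / 4 ≤ X ∧ X ≤ 3 / 4)) (k : ℕ) : iteratedDeriv k om X = 0 :=
  s2_iter_eq_zero (S := Set.Icc (1 / 4 : ℝ) (3 / 4)) isClosed_Icc (fun x hx => h.om_supp x hx) hX k

theorem s2Wr_marg {s : ℕ} {B A : ℝ} {om Φ χ : ℝ → ℝ} (h : S2Ker1 s B A om Φ χ) (u c : ℝ)
    (hc : c * (c - 1) * (c - 2) * (c - 3) = 0) : ∫ S : ℝ, s2Wr om Φ (u - c * S, S) = 0 := by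
  have hom := h.om_gev.smooth
  have hΦ := h.ph_gev.smooth
  have hca : ∀ k : ℕ, Continuous fun S : ℝ => iteratedDeriv k om (u - c * S) := fun k =>
    (s2_iter_contDiff hom k).continuous.comp (by fun_prop)
  have hcb : ∀ k : ℕ, Continuous (iteratedDeriv k Φ) := fun k => (s2_iter_contDiff hΦ k).continuous
  have hVc : Continuous (s2V om Φ u c) := by
    unfold s2V
    exact ((((hca 0).mul (hcb 3)).add (continuous_const.mul ((hca 1).mul (hcb 2)))).add
      (continuous_const.mul ((hca 2).mul (hcb 1)))).add (continuous_const.mul ((hca 3).mul (hcb 0)))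
  have hWc : Continuous fun S : ℝ => s2Wr om Φ (u - c * S, S) := by
    unfold s2Wr
    have h0 := hca 0
    simp only [iteratedDeriv_zero] at h0
    exact (((h0.mul (hcb 4)).sub (continuous_const.mul ((hca 1).mul (hcb 3)))).add
      (continuous_const.mul ((hca 2).mul (hcb 2)))).sub (continuous_const.mul ((hca 3).mul (hcb 1)))
  have hVs : HasCompactSupport (s2V om Φ u c) := by
    refine HasCompactSupport.of_support_subset_isCompact
      (isCompact_Icc (a := -(1 / 24 : ℝ)) (b := 1 / 24)) fun S hS => ?_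
    by_contra hcon
    have hz := s2_ph_iter_zero h (S := S) (fun hle => hcon (abs_le.1 hle))
    exact hS (by unfold s2V; simp only [hz]; ring)
  have hWs : HasCompactSupport fun S : ℝ => s2Wr om Φ (u - c * S, S) := by
    refine HasCompactSupport.of_support_subset_isCompact
      (isCompact_Icc (a := -(1 / 24 : ℝ)) (b := 1 / 24)) fun S hS => ?_
    by_contra hcon
    have hz := s2_ph_iter_zero h (S := S) (fun hle => hcon (abs_le.1 hle))
    exact hS (by unfold s2Wr; simp only [hz]; ring)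
  exact integral_eq_zero_of_hasDerivAt_of_integrable (fun S => s2V_hasDerivAt hom hΦ u c hc S)
    (hWc.integrable_of_hasCompactSupport hWs) (hVc.integrable_of_hasCompactSupport hVs)

/-- the Gevrey bound of one tensor term -/
theorem s2_term_gev {s : ℕ} {B A : ℝ} {om Φ : ℝ → ℝ} (hA : 0 ≤ A) (hom : Gev s B A om) (hΦ : Gev s B A Φ)
    (k l : ℕ) :
    Gev s ((B * (2 ^ s * A) ^ k * (k.factorial : ℝ) ^ s) * (B * (2 ^ s * A) ^ l * (l.factorial : ℝ) ^ s))
      (2 ^ s * A + 2 ^ s * A) (fun p : ℝ × ℝ => iteratedDeriv k om p.1 * iteratedDeriv l Φ p.2) := by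
  have hA' : 0 ≤ 2 ^ s * A := by positivity
  have h1 := gev_mono_set (gev_comp_fst (E' := ℝ) hA' (gev_iteratedDeriv hA hom k))
    (S' := Set.univ) (fun _ _ => Set.mem_univ _)
  have h2 := gev_mono_set (gev_comp_snd (E := ℝ) hA' (gev_iteratedDeriv hA hΦ l))
    (S' := Set.univ) (fun _ _ => Set.mem_univ _)
  exact gev_mul hA' hA' h1 h2

theorem s2W_gev {s : ℕ} {B A : ℝ} {om Φ : ℝ → ℝ} (hA : 0 ≤ A) (hom : Gev s B A om) (hΦ : Gev s B A Φ) :
    ∃ B' : ℝ, Gev s B' (2 ^ s * A + 2 ^ s * A) (s2W om Φ) := by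
  have t0 := s2_term_gev hA hom hΦ 0 4
  have t1 := gev_const_smul (6 : ℝ) (s2_term_gev hA hom hΦ 1 3)
  have t2 := gev_const_smul (11 : ℝ) (s2_term_gev hA hom hΦ 2 2)
  have t3 := gev_const_smul (6 : ℝ) (s2_term_gev hA hom hΦ 3 1)
  have hsum := gev_ofReal (gev_sub (gev_add (gev_sub t0 t1) t2) t3)
  refine ⟨_, gev_congr hsum fun p => ?_⟩
  rw [s2W_eq]
  unfold s2Wr
  simp only [iteratedDeriv_zero, smul_eq_mul]

/-- P-S2-KER2: the two-dimensional kernel. -/
theorem s2_ker_of_ker1 {s : ℕ} {B A : ℝ} {om Φ χ : ℝ → ℝ} (h : S2Ker1 s B A om Φ χ) :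
    ∃ C0 : ℝ, S2Ker C0 (s2W om Φ) χ := by
  obtain ⟨B', hW⟩ := s2W_gev h.A_nonneg h.om_gev h.ph_gev
  set A' : ℝ := 2 ^ s * A + 2 ^ s * A with hA'
  have hA'0 : 0 ≤ A' := by have := h.A_nonneg; positivity
  set C0 : ℝ := max 1 (max (s : ℝ) (max A' B')) with hC0
  have h1 : 1 ≤ C0 := le_max_left _ _
  have h2 : (s : ℝ) ≤ C0 := (le_max_left _ _).trans (le_max_right _ _)
  have h3 : A' ≤ C0 := (le_max_left _ _).trans ((le_max_right _ _).trans (le_max_right _ _))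
  have h4 : B' ≤ C0 := (le_max_right _ _).trans ((le_max_right _ _).trans (le_max_right _ _))
  refine ⟨C0, h1, hW.smooth, ?_, ?_, ?_, ?_, h.chi_smooth, h.chi_supp, h.chi_even, h.chi_zero⟩
  · intro p hp
    constructor
    · by_contra hcon
      have hz := s2_om_iter_zero h hcon
      have hz0 := hz 0
      rw [iteratedDeriv_zero] at hz0
      exact hp (by rw [s2W_eq]; unfold s2Wr; simp only [hz, hz0]; simp)
    · by_contra hcon
      have hz := s2_ph_iter_zero h hcon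
      exact hp (by rw [s2W_eq]; unfold s2Wr; simp only [hz]; simp)
  · intro u j
    simp only [s2W_eq]
    rw [integral_complex_ofReal, s2Wr_marg h u (j : ℝ) (by fin_cases j <;> simp)]
    simp
  · intro n p
    exact gev_to_GB hW h1 h2 hA'0 h3 h4 (Set.mem_univ p) n
  · intro X S F hF
    simp only [s2W_eq]
    rw [← Complex.ofReal_sum]
    congr 1
    unfold s2Wr
    simp only
    have p0 := h.om_part 0 X F hF
    have p1 := h.om_part 1 X F hF
    have p2 := h.om_part 2 X F hF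
    have p3 := h.om_part 3 X F hF
    simp only [iteratedDeriv_zero, if_true] at p0
    rw [if_neg (by norm_num)] at p1 p2 p3
    rw [Finset.sum_sub_distrib, Finset.sum_add_distrib, Finset.sum_sub_distrib, ← Finset.sum_mul,
      ← Finset.mul_sum, ← Finset.mul_sum, ← Finset.mul_sum, ← Finset.sum_mul, ← Finset.sum_mul,
      ← Finset.sum_mul, p0, p1, p2, p3, h.calderon]
    ring

end Claimed.Agent.R258
end

/-! ## Part Ker1 -/

/-
Row 258, block [S2] (outer.tex, architect helper145), package P-S2-KER1: existence of the one-dimensional data `S2Ker1` of the model kernel.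
INPUT: the Gevrey step function and the closure properties of block [GEV] (helper252, folder R258/Gev/: import what you need as soon as it is on main; until then
state the facts you use about the step function `R` as hypotheses of auxiliary lemmas).

CONSTRUCTION (see also the header of `Ker.lean`).  `GB C f := ∀ n x, |iteratedDeriv n f x| ≤ (C (n+2))^(C (n+2))`.
* `R` smooth, `R = 0` on `(-∞,1/4]`, `R = 1` on `[5/12,∞)`, `GB C R`.
* `om X = R X - R (X - 1/3)`.  Support: `X ≤ 1/4` both vanish, `X ≥ 3/4` both are `1`.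
  `iteratedDeriv k om X = iteratedDeriv k R X - iteratedDeriv k R (X - 1/3)` (`iteratedDeriv_comp_sub_const`/`iteratedDeriv_comp_add_const`..), and `iteratedDeriv k R` vanishes on `(-∞,1/4) ∪ (5/12,∞)` for `k ≥ 1`
  (locally constant; by continuity also at the end points).
  `om_part`: the terms with `n ∉ F` vanish, so one may enlarge `F` to `Finset.Icc (-m) m`, `m` large (`Finset.sum_subset`); there the sum telescopes
  (`X - n/3 - 1/3 = X - (n+1)/3`) to `R^{(k)}(X + m/3) - R^{(k)}(X - (m+1)/3)`.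
* `B S = R (1/2 - 6 S) * R (1/2 + 6 S)`: even, `= 1` for `|S| ≤ 1/72`, `= 0` for `|S| ≥ 1/24`.  `Φ₀ S = S^3 * B S` (odd), `χ = iteratedDeriv 3 Φ₀`: smooth, even, supported in `|S| ≤ 1/24`,
  `χ = 6` near `0` (there `Φ₀ = S^3`).
* `Φ S = ∫ b in (1:ℝ)..2, b^(-4) * Φ₀ (b * S)`.  By induction on `n` : `iteratedDeriv n Φ S = ∫ b in 1..2, b^(n-4) * iteratedDeriv n Φ₀ (b * S)` (zpow)
  (`intervalIntegral.hasDerivAt_integral_of_dominated_loc_of_deriv_le`; all derivatives of `Φ₀` are bounded), smoothness by `contDiff_of_differentiable_iteratedDeriv`/`contDiff_infty_iff_deriv`.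
  `|iteratedDeriv n Φ| ≤ 2^n sup |iteratedDeriv n Φ₀|`.  Support: `|S| > 1/24 → |b S| > 1/24`.
  `calderon`: for `S ≠ 0`, `d/db [χ (b S)] = S * iteratedDeriv 4 Φ₀ (b S)`, so `S * iteratedDeriv 4 Φ S = χ (2 S) - χ S` (`intervalIntegral.integral_eq_sub_of_hasDerivAt`);
  for `S = 0` : `iteratedDeriv 4 Φ₀ 0 = 0` (`Φ₀ = S^3` near `0`) and `x / 0 = 0`.
* One constant `C` for all bounds: take the maximum (the bound is monotone in `C ≥ 1`: base and exponent increase, base `≥ 2`).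
-/

section
open MeasureTheory
open scoped ENNReal ContDiff

namespace Claimed.Agent.R258

/-- the step -/
noncomputable def s2R : ℝ → ℝ := gevStepAB (1 / 4) (5 / 12)

theorem s2R_gev : Gev 2 1 36000 s2R := by
  have := gev_stepAB (show (1 / 4 : ℝ) < 5 / 12 by norm_num)
  norm_num at this
  exact this

theorem s2R_zero {x : ℝ} (hx : x ≤ 1 / 4) : s2R x = 0 := gev_stepAB_zero (by norm_num) hx

theorem s2R_one {x : ℝ} (hx : 5 / 12 ≤ x) : s2R x = 1 := gev_stepAB_one (by norm_num) hx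

theorem s2R_iter_left {x : ℝ} (hx : x < 1 / 4) (k : ℕ) : iteratedDeriv k s2R x = 0 := by
  have h : s2R =ᶠ[nhds x] fun _ => (0 : ℝ) := by
    filter_upwards [Iio_mem_nhds hx] with y hy
    exact s2R_zero (le_of_lt hy)
  rw [h.iteratedDeriv_eq k, iteratedDeriv_const]
  simp

theorem s2R_iter_right {x : ℝ} (hx : 5 / 12 < x) (k : ℕ) : iteratedDeriv k s2R x = if k = 0 then 1 else 0 := by
  have h : s2R =ᶠ[nhds x] fun _ => (1 : ℝ) := by
    filter_upwards [Ioi_mem_nhds hx] with y hy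
    exact s2R_one (le_of_lt hy)
  rw [h.iteratedDeriv_eq k, iteratedDeriv_const]

/-- the spatial window -/
noncomputable def s2om (X : ℝ) : ℝ := s2R X - s2R (X - 1 / 3)

theorem s2om_gev : Gev 2 (1 + 1) 36000 s2om :=
  gev_sub s2R_gev (gev_mono_set (gev_comp_sub s2R_gev (1 / 3)) (fun _ _ => Set.mem_univ _))

theorem s2om_supp (X : ℝ) (h : s2om X ≠ 0) : 1 / 4 ≤ X ∧ X ≤ 3 / 4 := by
  constructor
  · by_contra hc
    push Not at hc
    exact h (by unfold s2om; rw [s2R_zero hc.le, s2R_zero (by linarith)]; ring)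
  · by_contra hc
    push Not at hc
    exact h (by unfold s2om; rw [s2R_one (by linarith), s2R_one (by linarith)]; ring)

theorem s2om_iter (k : ℕ) (X : ℝ) :
    iteratedDeriv k s2om X = iteratedDeriv k s2R X - iteratedDeriv k s2R (X - 1 / 3) := by
  have h1 : ContDiffAt ℝ k s2R X := (s2R_gev.smooth.of_le (by exact_mod_cast le_top)).contDiffAt
  have h2 : ContDiffAt ℝ k (fun z => s2R (z - 1 / 3)) X :=
    ((s2R_gev.smooth.comp (contDiff_id.sub contDiff_const)).of_le (by exact_mod_cast le_top)).contDiffAt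
  have h3 := iteratedDeriv_fun_sub h1 h2
  rw [iteratedDeriv_comp_sub_const] at h3
  exact h3

theorem s2om_part (k : ℕ) (X : ℝ) (F : Finset ℤ)
    (hF : ∀ n : ℤ, 1 / 4 ≤ X - (n : ℝ) / 3 → X - (n : ℝ) / 3 ≤ 3 / 4 → n ∈ F) :
    ∑ n ∈ F, iteratedDeriv k s2om (X - (n : ℝ) / 3) = if k = 0 then 1 else 0 := by
  have hz : ∀ n : ℤ, ¬ (1 / 4 ≤ X - (n : ℝ) / 3 ∧ X - (n : ℝ) / 3 ≤ 3 / 4) →
      iteratedDeriv k s2om (X - (n : ℝ) / 3) = 0 := fun n hn =>
    s2_iter_eq_zero (S := Set.Icc (1 / 4 : ℝ) (3 / 4)) isClosed_Icc (fun x hx => s2om_supp x hx) hn k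
  set n₀ : ℤ := ⌊3 * X - 3 / 4⌋ with hn₀
  have hfl1 : (n₀ : ℝ) ≤ 3 * X - 3 / 4 := Int.floor_le _
  have hfl2 : 3 * X - 3 / 4 < (n₀ : ℝ) + 1 := Int.lt_floor_add_one _
  have e1 : ∑ n ∈ F, iteratedDeriv k s2om (X - (n : ℝ) / 3)
      = ∑ n ∈ F ∪ {n₀, n₀ - 1}, iteratedDeriv k s2om (X - (n : ℝ) / 3) :=
    Finset.sum_subset Finset.subset_union_left fun x _ hx => hz x fun hc => hx (hF x hc.1 hc.2)
  have e2 : ∑ n ∈ ({n₀, n₀ - 1} : Finset ℤ), iteratedDeriv k s2om (X - (n : ℝ) / 3)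
      = ∑ n ∈ F ∪ {n₀, n₀ - 1}, iteratedDeriv k s2om (X - (n : ℝ) / 3) := by
    refine Finset.sum_subset Finset.subset_union_right fun x _ hx => hz x fun hc => hx ?_
    have h1 : x ≤ n₀ := Int.le_floor.2 (by linarith [hc.1])
    have h2 : n₀ - 2 < x := by
      have : ((n₀ - 2 : ℤ) : ℝ) < (x : ℝ) := by push_cast; linarith [hc.2]
      exact_mod_cast this
    have h3 : x = n₀ ∨ x = n₀ - 1 := by omega
    simpa using h3
  rw [e1, ← e2, Finset.sum_pair (by omega), s2om_iter, s2om_iter]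
  have a1 : X - ((n₀ - 1 : ℤ) : ℝ) / 3 - 1 / 3 = X - (n₀ : ℝ) / 3 := by push_cast; ring
  rw [a1, s2R_iter_left (x := X - (n₀ : ℝ) / 3 - 1 / 3) (by linarith),
    s2R_iter_right (x := X - ((n₀ - 1 : ℤ) : ℝ) / 3) (by push_cast; linarith)]
  ring

/-- the odd profile `S³ B(S)` -/
noncomputable def s2Ph0 (S : ℝ) : ℝ := S ^ 3 * gevWin (1 / 48) (1 / 24) S

theorem s2Ph0_supp (S : ℝ) (h : s2Ph0 S ≠ 0) : |S| ≤ 1 / 24 := by
  by_contra hc
  push Not at hc
  exact h (by unfold s2Ph0; rw [gev_win_zero (by norm_num) hc.le]; ring)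

theorem s2Ph0_gev : Gev 2 1 576003 s2Ph0 := by
  have hw : Gev 2 1 576000 (gevWin (1 / 48) (1 / 24)) := by
    have := gev_win (show (1 / 48 : ℝ) < 1 / 24 by norm_num)
    norm_num at this
    exact this
  have h1 := gev_pow (zero_le_one' ℝ) (gev_id (le_refl (1 : ℝ))) 3
  have h2 := gev_mono h1 (Nat.zero_le 2) le_rfl (by norm_num) le_rfl (Set.Subset.refl _)
  have h3 := gev_mul (by norm_num) (by norm_num) h2 (gev_mono_set hw (Set.subset_univ _))
  have h4 := gev_of_closed h3 (by norm_num) (by norm_num)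
    (by
      have : {x : ℝ | |x| ≤ 1} = Set.Icc (-1) 1 := by ext x; simp [abs_le]
      rw [this]; exact isClosed_Icc)
    (fun x hx => by
      have := s2Ph0_supp x hx
      show |x| ≤ 1
      linarith)
  norm_num at h4
  exact h4

theorem s2Ph0_odd (S : ℝ) : s2Ph0 (-S) = - s2Ph0 S := by
  unfold s2Ph0
  rw [gev_win_even]
  ring

theorem s2Ph0_near : s2Ph0 =ᶠ[nhds 0] fun S => S ^ 3 := by
  have : Set.Ioo (-(1 / 48 : ℝ)) (1 / 48) ∈ nhds (0 : ℝ) := Ioo_mem_nhds (by norm_num) (by norm_num)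
  filter_upwards [this] with S hS
  unfold s2Ph0
  rw [gev_win_one (by norm_num) (abs_le.2 ⟨hS.1.le, hS.2.le⟩), mul_one]

/-- the frequency cutoff -/
noncomputable def s2chi : ℝ → ℝ := iteratedDeriv 3 s2Ph0

theorem s2chi_even (S : ℝ) : s2chi (-S) = s2chi S := by
  have h1 := iteratedDeriv_comp_neg 3 s2Ph0 S
  have h2 : (fun x => s2Ph0 (-x)) = fun x => - s2Ph0 x := funext s2Ph0_odd
  rw [h2, iteratedDeriv_fun_neg] at h1
  unfold s2chi
  simp only [smul_eq_mul] at h1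
  linarith

theorem s2chi_zero : s2chi 0 ≠ 0 := by
  unfold s2chi
  rw [s2Ph0_near.iteratedDeriv_eq 3, iteratedDeriv_fun_pow_zero]
  simp [Nat.factorial]

theorem s2Ph0_four : iteratedDeriv 4 s2Ph0 0 = 0 := by
  rw [s2Ph0_near.iteratedDeriv_eq 4, iteratedDeriv_fun_pow_zero]
  simp

/-- the averaged profile -/
noncomputable def s2Ph (S : ℝ) : ℝ := ∫ b in (1 : ℝ)..2, b ^ (-4 : ℤ) * s2Ph0 (b * S)

theorem s2Ph_supp (S : ℝ) (h : s2Ph S ≠ 0) : |S| ≤ 1 / 24 := by
  by_contra hc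
  push Not at hc
  apply h
  unfold s2Ph
  have : ∀ b ∈ Set.uIcc (1 : ℝ) 2, b ^ (-4 : ℤ) * s2Ph0 (b * S) = 0 := by
    intro b hb
    rw [Set.uIcc_of_le (by norm_num)] at hb
    have h0 : s2Ph0 (b * S) = 0 := by
      by_contra hne
      have h1 := s2Ph0_supp _ hne
      rw [abs_mul, abs_of_nonneg (by linarith [hb.1])] at h1
      have h2 : |S| ≤ b * |S| := le_mul_of_one_le_left (abs_nonneg S) hb.1
      linarith
    rw [h0, mul_zero]
  rw [intervalIntegral.integral_congr this]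
  simp

theorem s2_calderon (S : ℝ) : iteratedDeriv 4 s2Ph S = (s2chi (2 * S) - s2chi S) / S := by
  have h1 := (gev_avg (by norm_num) s2Ph0_gev).2 4 S
  have h2 : iteratedDeriv 4 s2Ph S = ∫ b in (1 : ℝ)..2, iteratedDeriv 4 s2Ph0 (b * S) := by
    refine h1.trans ?_
    simp
  rw [h2]
  by_cases hS : S = 0
  · subst hS
    simp [s2Ph0_four]
  · rw [eq_div_iff hS, ← intervalIntegral.integral_mul_const]
    have hd : ∀ b ∈ Set.uIcc (1 : ℝ) 2,
        HasDerivAt (fun b : ℝ => s2chi (b * S)) (iteratedDeriv 4 s2Ph0 (b * S) * S) b := by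
      intro b _
      have g1 : HasDerivAt s2chi (iteratedDeriv 4 s2Ph0 (b * S)) (b * S) :=
        s2_iter_hasDerivAt s2Ph0_gev.smooth 3 (b * S)
      have g2 : HasDerivAt (fun b : ℝ => b * S) S b := by
        simpa using (hasDerivAt_id b).mul_const S
      exact HasDerivAt.comp (h₂ := s2chi) (h := fun b : ℝ => b * S) b g1 g2
    have hc : Continuous fun b : ℝ => iteratedDeriv 4 s2Ph0 (b * S) * S :=
      ((s2_iter_contDiff s2Ph0_gev.smooth 4).continuous.comp (by fun_prop)).mul continuous_const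
    rw [intervalIntegral.integral_eq_sub_of_hasDerivAt hd (hc.intervalIntegrable _ _), one_mul]

/-- P-S2-KER1: existence of the one-dimensional data (from the Gevrey step function of block [GEV]). -/
theorem s2_ker1_exists : ∃ (s : ℕ) (B A : ℝ) (om Φ χ : ℝ → ℝ), S2Ker1 s B A om Φ χ := by
  refine ⟨2, 2, 1152006, s2om, s2Ph, s2chi, by norm_num, ?_, s2om_supp, s2om_part, ?_, s2Ph_supp,
    s2_iter_contDiff s2Ph0_gev.smooth 3, ?_, s2chi_even, s2chi_zero, s2_calderon⟩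
  · exact gev_mono s2om_gev le_rfl (by norm_num) (by norm_num) (by norm_num) (Set.Subset.refl _)
  · exact gev_mono (gev_avg (by norm_num) s2Ph0_gev).1 le_rfl (by norm_num) (by norm_num) (by norm_num)
      (Set.Subset.refl _)
  · intro S hS
    by_contra hc
    exact hS (s2_iter_eq_zero (S := Set.Icc (-(1 / 24 : ℝ)) (1 / 24)) isClosed_Icc
      (fun x hx => abs_le.1 (s2Ph0_supp x hx)) (fun hmem => hc (abs_le.2 hmem)) 3)

end Claimed.Agent.R258
end

/-! ## Part Ker3 -/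

/-
Row 258, block [S2] (outer.tex, architect helper145), package P-S2-KER3: the model kernel transported to a cell is admissible with `c0 = 1/8`.
-/

section
open MeasureTheory
open scoped ENNReal ContDiff

namespace Claimed.Agent.R258

theorem s2w_eq_comp (W : ℝ × ℝ → ℂ) (I : Cell) :
    s2w W I = fun p : ℝ × ℝ =>
      (W ∘ (I.len⁻¹ • ContinuousLinearMap.id ℝ (ℝ × ℝ))) (p - ((I.left, 0) : ℝ × ℝ)) := by
  funext p
  unfold s2w
  simp only [Function.comp_apply, FunLike.coe_smul, Pi.smul_apply, ContinuousLinearMap.id_apply]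
  congr 1
  ext
  · simp [div_eq_inv_mul]
  · simp [div_eq_inv_mul]

/-- P-S2-KER3.  `supp`: `X + j S ∈ [1/8, 7/8]`.  `marg`: substitution `t = len * S` (`integral_comp_div`/`integral_comp_mul_left`).
`deriv`: `s2w W I = W ∘ (len⁻¹ • ·) ∘ (· - (left, 0))`; `iteratedFDeriv_comp_sub`/`iteratedFDeriv_comp_add_right`,
`ContinuousLinearMap.iteratedFDeriv_comp_right` for `g = len⁻¹ • ContinuousLinearMap.id`, `ContinuousMultilinearMap.norm_compContinuousLinearMap_le`,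
`‖g‖ ≤ len⁻¹`, `Finset.prod_const`. -/
theorem s2w_admissible {C0 : ℝ} {W : ℝ × ℝ → ℂ} {χ : ℝ → ℝ} (h : S2Ker C0 W χ) (I : Cell) :
    Admissible (1 / 8) C0 I (s2w W I) := by
  have hr : 0 < I.len := cell_len_pos I
  set g : ℝ × ℝ →L[ℝ] ℝ × ℝ := I.len⁻¹ • ContinuousLinearMap.id ℝ (ℝ × ℝ) with hg
  have hgn : ‖g‖ ≤ I.len⁻¹ := by
    refine ContinuousLinearMap.opNorm_le_bound _ (inv_pos.2 hr).le fun x => ?_
    rw [hg]
    simp only [FunLike.coe_smul, Pi.smul_apply, ContinuousLinearMap.id_apply]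
    rw [norm_smul, Real.norm_eq_abs, abs_of_pos (inv_pos.2 hr)]
  refine ⟨?_, ?_, ?_, ?_⟩
  · rw [s2w_eq_comp]
    exact (h.smooth.comp g.contDiff).comp (contDiff_id.sub contDiff_const)
  · intro p hp j
    obtain ⟨⟨h1, h2⟩, h3⟩ := h.supp _ hp
    simp only at h1 h2 h3
    rw [abs_le] at h3
    have hj0 : (0 : ℝ) ≤ (j : ℝ) := Nat.cast_nonneg _
    have hj3 : ((j : ℕ) : ℝ) ≤ 3 := by
      have : (j : ℕ) ≤ 3 := by omega
      exact_mod_cast this
    rw [le_div_iff₀ hr] at h1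
    rw [div_le_iff₀ hr] at h2
    have h3a := h3.1
    have h3b := h3.2
    rw [le_div_iff₀ hr] at h3a
    rw [div_le_iff₀ hr] at h3b
    rw [cell_right_eq]
    have e1 : (j : ℝ) * p.2 ≤ (j : ℝ) * (1 / 24 * I.len) := mul_le_mul_of_nonneg_left h3b hj0
    have e2 : (j : ℝ) * (-(1 / 24) * I.len) ≤ (j : ℝ) * p.2 := mul_le_mul_of_nonneg_left h3a hj0
    have e3 : (j : ℝ) * (1 / 24 * I.len) ≤ 3 * (1 / 24 * I.len) :=
      mul_le_mul_of_nonneg_right hj3 (by positivity)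
    constructor <;> nlinarith
  · intro u j
    have h1 : ∀ t : ℝ, s2w W I (u - (j : ℝ) * t, t) =
        (fun S : ℝ => W ((u - I.left) / I.len - (j : ℝ) * S, S)) (t / I.len) := by
      intro t
      unfold s2w
      simp only
      congr 2
      field_simp
      ring
    have h2 : ∫ t : ℝ, s2w W I (u - (j : ℝ) * t, t) =
        ∫ t : ℝ, (fun S : ℝ => W ((u - I.left) / I.len - (j : ℝ) * S, S)) (t / I.len) :=
      integral_congr_ae (Filter.Eventually.of_forall h1)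
    rw [h2, Measure.integral_comp_div (fun S : ℝ => W ((u - I.left) / I.len - (j : ℝ) * S, S)) I.len,
      h.marg, smul_zero]
  · intro n p
    rw [s2w_eq_comp, iteratedFDeriv_comp_sub,
      g.iteratedFDeriv_comp_right h.smooth _ (i := n) (by exact_mod_cast le_top)]
    calc ‖(iteratedFDeriv ℝ n W (g (p - (I.left, 0)))).compContinuousLinearMap fun _ => g‖
        ≤ ‖iteratedFDeriv ℝ n W (g (p - (I.left, 0)))‖ * ∏ _i : Fin n, ‖g‖ :=
          ContinuousMultilinearMap.norm_compContinuousLinearMap_le _ _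
      _ ≤ (C0 * ((n : ℝ) + 2)) ^ (C0 * ((n : ℝ) + 2)) * (I.len⁻¹) ^ n := by
          rw [Finset.prod_const, Finset.card_univ, Fintype.card_fin]
          have e1 := h.gev n (g (p - (I.left, 0)))
          have e2 : ‖g‖ ^ n ≤ (I.len⁻¹) ^ n := pow_le_pow_left₀ (norm_nonneg g) hgn n
          exact mul_le_mul e1 e2 (pow_nonneg (norm_nonneg _) n) ((norm_nonneg _).trans e1)
      _ = (I.len ^ n)⁻¹ * (C0 * ((n : ℝ) + 2)) ^ (C0 * ((n : ℝ) + 2)) := by
          rw [inv_pow, mul_comm]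

end Claimed.Agent.R258
end

/-! ## Part ModelDefs -/

/-
Row 258, block [S2] (outer.tex, architect helper145).  Definitions for the passage from the local forms to the truncated kernels `(χ(bt) - χ(at))/t`.
-/

section
open MeasureTheory
open scoped ENNReal ContDiff

namespace Claimed.Agent.R258

/-- the truncated kernel `(χ(bt) - χ(at))/t` -/
noncomputable def s2K (χ : ℝ → ℝ) (a b t : ℝ) : ℝ := (χ (b * t) - χ (a * t)) / t

/-- the four-linear form with a kernel depending on `t` only -/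
noncomputable def s2Lam (k : ℝ → ℝ) (g : Fin 4 → ℝ → ℂ) : ℂ :=
  ∫ p : ℝ × ℝ, (k p.2 : ℂ) * ∏ j : Fin 4, g j (p.1 + (j : ℝ) * p.2)

/-- the cells of depth `s0 ≤ s < s0 + N` and index `|m| ≤ M` -/
noncomputable def s2cells (s0 : ℤ) (N M : ℕ) : Finset Cell :=
  (Finset.range N ×ˢ Finset.Icc (-(M : ℤ)) M).image fun a => (⟨s0 + (a.1 : ℤ), a.2⟩ : Cell)

/-- the three translations of the standard grid -/
noncomputable def s2tau (s0 : ℤ) (σ : Fin 3) : ℝ := (σ : ℝ) * (2 : ℝ) ^ (-s0) / 3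

end Claimed.Agent.R258
end
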