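/-
Row 258, block [S2] (outer.tex, architect helper145).  PACKED FILE (parts: Abs, Tree, Unnorm, Absorb, Sum); each part keeps its original header.
-/
import Claimed.Agent.R258.Pack005
import Claimed.Agent.R258.Pack013
import Claimed.Agent.R258.Pack012
import Claimed.Agent.R258.S5.Base

set_option autoImplicit false

/-! ## Part Abs -/

/-
Row 258, block [S2] (outer.tex, architect helper145), package P-S2-ABS.

The preliminary bound `C_N ≲ N` (from Lemma 2.1 = `AbsCore.lean`).

PROOF NOTES.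
* `s2_prod_nnorm_le`: `nnorm_le_Mq` (`R258/Cell/Nnorm.lean`): `ofReal (∏ nnorm) = ∏ ofReal nnorm ≤ ∏ Mq q (f j) x` for every `x ∈ I.set`
  (`ENNReal.ofReal_prod_of_nonneg`, `Finset.prod_le_prod'`), integrate the constant over `E` (`setLIntegral_const`, `setLIntegral_mono'`).
* `s2_cell_term_le`: `s2_local_abs`, `nnorm_mono_exponent` (`2 ≤ q`), `s2_prod_nnorm_le` with `E = I.set` (`cell_volume_set`).
* `s2_same_depth_sum_le`: cells of one depth are pairwise disjoint (`cell_disjoint_of_depth`, `lintegral_biUnion_finset`,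
  `setLIntegral_le_lintegral`).
* `s2_localBound_N`: split `S` according to the depth (`Finset.sum_fiberwise_of_maps_to` into `Finset.Ico s0 (s0+N)`), `N` depths.
-/

section
open MeasureTheory
open scoped ENNReal ContDiff

namespace Claimed.Agent.R258

/-- `|I| ∏_j ‖f_j‖_{q,I} ≤ ∫_E ∏_j M_q f_j * |I| / |E|`, in the form used twice: for a measurable `E ⊆ I`. -/
theorem s2_prod_nnorm_le {q : ℝ} (hq : 0 < q) (I : Cell) {f : Fin 4 → ℝ → ℂ} (hf : ∀ j, BddCS (f j))
    {E : Set ℝ} (hE : MeasurableSet E) (hEI : E ⊆ I.set) :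
    volume E * ENNReal.ofReal (∏ j : Fin 4, nnorm q I (f j)) ≤ ∫⁻ x in E, ∏ j : Fin 4, Mq q (f j) x := by
  rw [mul_comm, ← setLIntegral_const]
  refine setLIntegral_mono' hE fun x hx => ?_
  rw [ENNReal.ofReal_prod_of_nonneg (fun j _ => nnorm_nonneg _ _ _)]
  exact Finset.prod_le_prod' fun j _ => nnorm_le_Mq hq I (f j) (hEI hx)

theorem s2_cell_term_le {c0 C0 q : ℝ} {I : Cell} {w : ℝ × ℝ → ℂ} (h : Admissible c0 C0 I w)
    (hc0 : 0 < c0) (hq : 2 ≤ q) {f : Fin 4 → ℝ → ℂ} (hf : ∀ j, BddCS (f j)) :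
    ENNReal.ofReal (I.len * ‖form I w f‖) ≤
      ENNReal.ofReal ((C0 * 2) ^ (C0 * 2)) * ∫⁻ x in I.set, ∏ j : Fin 4, Mq q (f j) x := by
  have hK0 : 0 ≤ (C0 * 2) ^ (C0 * 2) := (norm_nonneg _).trans (s2_adm_bound h 0)
  have hlen : 0 < I.len := cell_len_pos I
  have hq0 : 0 < q := by linarith
  have h1 : ‖form I w f‖ ≤ (C0 * 2) ^ (C0 * 2) * ∏ j : Fin 4, nnorm q I (f j) := by
    refine (s2_local_abs h hc0 hf).trans ?_
    gcongr with j _
    · exact fun j _ => nnorm_nonneg _ _ _
    · exact nnorm_mono_exponent (by norm_num) hq (hf j).meas.aestronglyMeasurable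
        ((hf j).integrableOn_rpow_cell hq0.le I)
  calc ENNReal.ofReal (I.len * ‖form I w f‖)
      ≤ ENNReal.ofReal (I.len * ((C0 * 2) ^ (C0 * 2) * ∏ j : Fin 4, nnorm q I (f j))) :=
        ENNReal.ofReal_le_ofReal (by gcongr)
    _ = ENNReal.ofReal ((C0 * 2) ^ (C0 * 2)) *
        (volume I.set * ENNReal.ofReal (∏ j : Fin 4, nnorm q I (f j))) := by
        rw [ENNReal.ofReal_mul hlen.le, ENNReal.ofReal_mul hK0, cell_volume_set]
        ring
    _ ≤ ENNReal.ofReal ((C0 * 2) ^ (C0 * 2)) * ∫⁻ x in I.set, ∏ j : Fin 4, Mq q (f j) x := by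
        gcongr
        exact s2_prod_nnorm_le hq0 I hf (cell_measurableSet I) subset_rfl

theorem s2_same_depth_sum_le (S : Finset Cell) (s : ℤ) (hS : ∀ I ∈ S, I.depth = s) (F : ℝ → ℝ≥0∞) :
    ∑ I ∈ S, ∫⁻ x in I.set, F x ≤ ∫⁻ x, F x := by
  have hd : Set.PairwiseDisjoint (S : Set Cell) Cell.set := by
    intro I hI J hJ hIJ
    exact cell_disjoint_of_depth ((hS I hI).trans (hS J hJ).symm) hIJ
  rw [← lintegral_biUnion_finset hd (fun I _ => cell_measurableSet I)]
  exact setLIntegral_le_lintegral _ _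

/-- `C_N(q) ≤ C₁ N`. -/
theorem s2_localBound_N {c0 C0 q : ℝ} (hc0 : 0 < c0) (hq : 2 ≤ q) (N : ℕ) :
    LocalBound c0 C0 q N ((C0 * 2) ^ (C0 * 2) * N) := by
  classical
  intro S s0 hS w hw f hf
  set P : ℝ → ℝ≥0∞ := fun x => ∏ j : Fin 4, Mq q (f j) x with hP
  set K : ℝ≥0∞ := ENNReal.ofReal ((C0 * 2) ^ (C0 * 2)) with hK
  have h1 : ENNReal.ofReal (∑ I ∈ S, I.len * ‖form I (w I) f‖) ≤ K * ∑ I ∈ S, ∫⁻ x in I.set, P x := by
    rw [ENNReal.ofReal_sum_of_nonneg (fun I _ => mul_nonneg (cell_len_nonneg I) (norm_nonneg _)),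
      Finset.mul_sum]
    exact Finset.sum_le_sum fun I hI => s2_cell_term_le (hw I hI) hc0 hq hf
  have h2 : ∑ I ∈ S, ∫⁻ x in I.set, P x ≤ (N : ℝ≥0∞) * ∫⁻ x, P x := by
    rw [← Finset.sum_fiberwise_of_maps_to (s := S) (t := Finset.Ico s0 (s0 + N)) (g := Cell.depth)
      (fun I hI => Finset.mem_Ico.2 (hS I hI))]
    calc ∑ s ∈ Finset.Ico s0 (s0 + N), ∑ I ∈ S with I.depth = s, ∫⁻ x in I.set, P x
        ≤ ∑ _s ∈ Finset.Ico s0 (s0 + (N : ℤ)), ∫⁻ x, P x :=
          Finset.sum_le_sum fun s _ =>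
            s2_same_depth_sum_le _ s (fun I hI => (Finset.mem_filter.1 hI).2) P
      _ = (N : ℝ≥0∞) * ∫⁻ x, P x := by
          rw [Finset.sum_const, Int.card_Ico, nsmul_eq_mul]
          simp
  calc ENNReal.ofReal (∑ I ∈ S, I.len * ‖form I (w I) f‖)
      ≤ K * ∑ I ∈ S, ∫⁻ x in I.set, P x := h1
    _ ≤ K * ((N : ℝ≥0∞) * ∫⁻ x, P x) := by gcongr
    _ = ENNReal.ofReal ((C0 * 2) ^ (C0 * 2) * N) * ∫⁻ x, P x := by
        rw [ENNReal.ofReal_mul' (Nat.cast_nonneg N), ENNReal.ofReal_natCast, mul_assoc]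

end Claimed.Agent.R258
end

/-! ## Part Tree -/

/-
Row 258, block [S2] (outer.tex, architect helper145), package P-S2-TREE.

One stopping step of the removal of the normalization (first half of Lemma 2.4).

PROOF NOTES.
* `s2_normalizedBound_nonneg`: apply the hypothesis with `T = {root}`, `S = ∅`, `f = 0` (`nnorm_zero`): `0 ≤ X * root.len`.
* `s2_tree_step` (ONE stopping step at the root `J`).  Put `a j = nnorm q J (f j) > 0` and call `K` bad if
  `16 * a j ^ q * K.len < ∫ y in K.set, ‖f j y‖ ^ q` for some `j`.  Take `Tr = cellsUpTo J n`, `stops = cellFirst Tr bad` (or: for each `j` the stops of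
  `cell_avg_stops_real` with `lam = 16 * a j ^ q`, united by `cellMaxs (biUnion ..)`, `cell_retained_biUnion`, `cell_sum_len_maxs_biUnion_le`).
  - `J` is not bad, as `∫_J ‖f j‖^q = a j ^ q * J.len` (`nnorm_rpow_mul_len`): the stops are `< J`;
  - for every `j` : `16 a_j^q ∑_{stops of j} |K| ≤ ∫_J ‖f j‖^q = a_j^q |J|`, so all stops have total length `≤ 4 |J| / 16`;
  - `T := Tr.filter (cellRetained stops)` is a `RootedTree J` (`cellRetained.of_le`, `cell_rootedTree_cellsUpTo`) and on `T`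
    `nnorm q I (f j) ≤ 16^(1/q) a_j`;
  - apply `NormalizedBound` to `g j = (16^(1/q) a_j)⁻¹ • f j` (`nnorm_const_smul`, `BddCS.const_mul`, `s2_form_smul`):
    `∑_{I ∈ S, I ≤ J retained} e I ≤ X 16^(4/q) (∏ a_j) |J| ≤ 256 X (∏ a_j) |J|`.
* the two `mono` lemmas: unfold; `le_trans`, `mul_le_mul_of_nonneg_right` (`cell_len_nonneg`), `ENNReal.ofReal_le_ofReal`, `mul_le_mul_left'`/`gcongr`.
-/

section
open MeasureTheory
open scoped ENNReal ContDiff

namespace Claimed.Agent.R258

theorem s2_normalizedBound_nonneg {c0 C0 q : ℝ} {N : ℕ} {X : ℝ} (hq : 0 < q)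
    (h : NormalizedBound c0 C0 q N X) : 0 ≤ X := by
  set root : Cell := ⟨0, 0⟩ with hroot
  have hT : RootedTree root {root} := by
    refine ⟨Finset.mem_singleton_self _, fun I hI => ?_, fun I hI J hIJ hJ => ?_⟩
    · rw [Finset.mem_singleton.1 hI]
    · rw [Finset.mem_singleton.1 hI] at hIJ
      exact Finset.mem_singleton.2 (le_antisymm hJ hIJ)
  have := h root {root} ∅ hT (Finset.empty_subset _) 0 (by simp) (fun _ _ => 0) (by simp)
    (fun _ _ => 0) (fun _ => BddCS.zero) (fun j I _ => by rw [nnorm_zero hq]; exact zero_le_one)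
  simp only [Finset.sum_empty] at this
  exact nonneg_of_mul_nonneg_left this (cell_len_pos root)

theorem s2_normalizedBound_mono {c0 C0 q : ℝ} {N : ℕ} {X Y : ℝ} (hXY : X ≤ Y)
    (h : NormalizedBound c0 C0 q N X) : NormalizedBound c0 C0 q N Y := by
  intro root T S hT hST s0 hS w hw f hf hn
  exact (h root T S hT hST s0 hS w hw f hf hn).trans
    (mul_le_mul_of_nonneg_right hXY (cell_len_nonneg root))

theorem s2_localBound_mono {c0 C0 q : ℝ} {N : ℕ} {X Y : ℝ} (hXY : X ≤ Y)
    (h : LocalBound c0 C0 q N X) : LocalBound c0 C0 q N Y := by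
  intro S s0 hS w hw f hf
  refine (h S s0 hS w hw f hf).trans ?_
  gcongr

/-- the stops of one function have total length at most `|J| / 16` -/
theorem s2_stops_len_one {q : ℝ} (hq : 0 < q) {f : ℝ → ℂ} (hf : BddCS f) {J : Cell}
    (hJ : nnorm q J f ≠ 0) {A : Finset Cell} (hanti : IsAntichain (· ≤ ·) (A : Set Cell))
    (hle : ∀ K ∈ A, K ≤ J)
    (hbad : ∀ K ∈ A, 16 * nnorm q J f ^ q * K.len < ∫ y in K.set, ‖f y‖ ^ q) :
    ∑ K ∈ A, K.len ≤ J.len / 16 := by
  have ha : 0 < nnorm q J f := lt_of_le_of_ne (nnorm_nonneg _ _ _) (Ne.symm hJ)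
  have haq : 0 < nnorm q J f ^ q := Real.rpow_pos_of_pos ha q
  have h1 : ∑ K ∈ A, ∫ y in K.set, ‖f y‖ ^ q ≤ ∫ y in J.set, ‖f y‖ ^ q :=
    cell_sum_integral_antichain_le hanti hle (hf.integrableOn_rpow_cell hq.le J)
      (fun y _ => Real.rpow_nonneg (norm_nonneg _) q)
  have h2 : ∑ K ∈ A, 16 * nnorm q J f ^ q * K.len ≤ ∑ K ∈ A, ∫ y in K.set, ‖f y‖ ^ q :=
    Finset.sum_le_sum fun K hK => (hbad K hK).le
  rw [← Finset.mul_sum] at h2
  rw [← nnorm_rpow_mul_len hq J f] at h1
  have h3 : 16 * nnorm q J f ^ q * ∑ K ∈ A, K.len ≤ nnorm q J f ^ q * J.len := h2.trans h1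
  rw [le_div_iff₀ (by norm_num : (0 : ℝ) < 16)]
  have h4 : nnorm q J f ^ q * ((∑ K ∈ A, K.len) * 16) ≤ nnorm q J f ^ q * J.len := by linarith
  exact le_of_mul_le_mul_left h4 haq

theorem s2_sixteen_rpow {q : ℝ} (hq : 2 ≤ q) :
    0 < (16 : ℝ) ^ (1 / q) ∧ (16 : ℝ) ^ (1 / q) ≤ 4 ∧ ((16 : ℝ) ^ (1 / q)) ^ q = 16 := by
  have hq0 : 0 < q := by linarith
  refine ⟨by positivity, ?_, ?_⟩
  · have h4 : (16 : ℝ) ^ (1 / 2 : ℝ) = 4 := by
      rw [show (16 : ℝ) = 4 ^ (2 : ℝ) by norm_num, ← Real.rpow_mul (by norm_num)]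
      norm_num
    rw [← h4]
    refine Real.rpow_le_rpow_of_exponent_le (by norm_num) ?_
    exact one_div_le_one_div_of_le (by norm_num) hq
  · rw [← Real.rpow_mul (by norm_num), one_div, inv_mul_cancel₀ hq0.ne', Real.rpow_one]

open Classical in
/-- one stopping step at a root `J` with nonzero sizes -/
theorem s2_tree_step {c0 C0 q : ℝ} {N : ℕ} {X : ℝ} (hq : 2 ≤ q)
    (h : NormalizedBound c0 C0 q N X) (S : Finset Cell) (s0 : ℤ)
    (hS : ∀ I ∈ S, s0 ≤ I.depth ∧ I.depth < s0 + N) (w : Cell → ℝ × ℝ → ℂ)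
    (hw : ∀ I ∈ S, Admissible c0 C0 I (w I)) (f : Fin 4 → ℝ → ℂ) (hf : ∀ j, BddCS (f j)) (J : Cell)
    (hJ : ∀ j, nnorm q J (f j) ≠ 0) :
    ∃ stops : Finset Cell, CellStops J (1 / 4) stops ∧
      ∑ I ∈ S.filter (fun I => I ≤ J ∧ cellRetained stops I), I.len * ‖form I (w I) f‖ ≤
        256 * X * (∏ j, nnorm q J (f j)) * J.len := by
  have hq0 : 0 < q := by linarith
  have hX : 0 ≤ X := s2_normalizedBound_nonneg hq0 h
  set a : Fin 4 → ℝ := fun j => nnorm q J (f j) with ha
  have ha0 : ∀ j, 0 < a j := fun j => lt_of_le_of_ne (nnorm_nonneg _ _ _) (Ne.symm (hJ j))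
  obtain ⟨hd0, hd4, hdq⟩ := s2_sixteen_rpow hq
  set d : ℝ := (16 : ℝ) ^ (1 / q) with hd
  set badj : Fin 4 → Cell → Prop := fun j K => 16 * a j ^ q * K.len < ∫ y in K.set, ‖f j y‖ ^ q
    with hbadj
  set Bad : Cell → Prop := fun K => ∃ j, badj j K with hBad
  have hJgood : ¬ Bad J := by
    rintro ⟨j, hj⟩
    simp only [hbadj] at hj
    rw [← nnorm_rpow_mul_len hq0 J (f j)] at hj
    have : 0 < a j ^ q * J.len := mul_pos (Real.rpow_pos_of_pos (ha0 j) q) (cell_len_pos J)
    simp only [ha] at this hj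
    linarith
  obtain ⟨n, hn⟩ := cell_exists_cellsUpTo J (S.filter fun I => I ≤ J)
    (fun I hI => (Finset.mem_filter.1 hI).2)
  obtain ⟨T, stops, hT, hgood, -, hstops, hanti, hcover, -⟩ := cell_stopping_tree Bad hJgood n
  refine ⟨stops, ⟨fun K hK => (hstops K hK).2.1, hanti, ?_⟩, ?_⟩
  · -- total length of the stops
    have h1 : ∀ j, ∑ K ∈ stops.filter (badj j), K.len ≤ J.len / 16 := by
      intro j
      refine s2_stops_len_one hq0 (hf j) (hJ j) ?_ ?_ ?_
      · exact hanti.subset (by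
          intro K hK
          exact (Finset.mem_filter.1 (Finset.mem_coe.1 hK)).1)
      · intro K hK
        exact (hstops K (Finset.mem_filter.1 hK).1).2.1.le
      · intro K hK
        exact (Finset.mem_filter.1 hK).2
    have h2 : ∑ K ∈ stops, K.len ≤ ∑ j : Fin 4, ∑ K ∈ stops.filter (badj j), K.len := by
      simp_rw [Finset.sum_filter]
      rw [Finset.sum_comm]
      refine Finset.sum_le_sum fun K hK => ?_
      obtain ⟨j, hj⟩ := (hstops K hK).1
      calc K.len = if badj j K then K.len else 0 := by rw [if_pos hj]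
        _ ≤ ∑ j : Fin 4, if badj j K then K.len else 0 :=
          Finset.single_le_sum (f := fun j : Fin 4 => if badj j K then K.len else 0)
            (fun i _ => by
              split_ifs
              · exact cell_len_nonneg K
              · exact le_rfl) (Finset.mem_univ j)
    calc ∑ K ∈ stops, K.len ≤ ∑ j : Fin 4, ∑ K ∈ stops.filter (badj j), K.len := h2
      _ ≤ ∑ _j : Fin 4, J.len / 16 := Finset.sum_le_sum fun j _ => h1 j
      _ = 1 / 4 * J.len := by
          rw [Finset.sum_const, Finset.card_univ, Fintype.card_fin, nsmul_eq_mul]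
          push_cast
          ring
  · -- the retained tree
    set S' : Finset Cell := S.filter (fun I => I ≤ J ∧ cellRetained stops I) with hS'
    have hS'S : ∀ I ∈ S', I ∈ S := fun I hI => (Finset.mem_filter.1 hI).1
    have hS'T : S' ⊆ T := by
      intro I hI
      obtain ⟨hIS, hIJ, hIr⟩ := Finset.mem_filter.1 hI
      have hmem : I ∈ cellsUpTo J n := hn (Finset.mem_filter.2 ⟨hIS, hIJ⟩)
      rcases hcover I hIJ (cell_mem_cellsUpTo.1 hmem).2 with h1 | ⟨K, hK, hIK⟩
      · exact h1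
      · exact absurd hIK (hIr K hK)
    set c : Fin 4 → ℂ := fun j => (((d * a j)⁻¹ : ℝ) : ℂ) with hc
    have hda : ∀ j, 0 < d * a j := fun j => mul_pos hd0 (ha0 j)
    have hcn : ∀ j, ‖c j‖ = (d * a j)⁻¹ := fun j => by
      simp only [hc]
      rw [Complex.norm_real, Real.norm_eq_abs, abs_of_pos (inv_pos.2 (hda j))]
    have hnorm : ∀ j, ∀ I ∈ T, nnorm q I (fun y => c j * f j y) ≤ 1 := by
      intro j I hI
      have h0 : nnorm q I (fun y => c j * f j y) = ‖c j‖ * nnorm q I (f j) :=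
        nnorm_const_smul hq0 I (c j) (f j)
      rw [h0, hcn, inv_mul_le_iff₀ (hda j), mul_one]
      have hnb : ¬ badj j I := fun hb => hgood I hI ⟨j, hb⟩
      simp only [hbadj, not_lt] at hnb
      rw [← nnorm_rpow_mul_len hq0 I (f j)] at hnb
      have h3 : nnorm q I (f j) ^ q ≤ 16 * a j ^ q := le_of_mul_le_mul_right hnb (cell_len_pos I)
      have h4 : (d * a j) ^ q = 16 * a j ^ q := by
        rw [Real.mul_rpow hd0.le (ha0 j).le, hdq]
      rw [← h4] at h3
      exact (Real.rpow_le_rpow_iff (nnorm_nonneg _ _ _) (hda j).le hq0).1 h3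
    have hmain := h J T S' hT hS'T s0 (fun I hI => hS I (hS'S I hI)) w (fun I hI => hw I (hS'S I hI))
      (fun j y => c j * f j y) (fun j => (hf j).const_mul (c j)) hnorm
    have hform : ∀ I, ‖form I (w I) (fun j y => c j * f j y)‖ =
        (∏ j, (d * a j))⁻¹ * ‖form I (w I) f‖ := by
      intro I
      rw [s2_form_smul, norm_mul, norm_prod]
      simp only [hcn]
      rw [Finset.prod_inv_distrib]
    simp only [hform] at hmain
    have hprod0 : 0 < ∏ j, (d * a j) := Finset.prod_pos fun j _ => hda j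
    have h5 : ∑ I ∈ S', I.len * ‖form I (w I) f‖ ≤ (∏ j, (d * a j)) * (X * J.len) := by
      have : ∑ I ∈ S', I.len * ((∏ j, (d * a j))⁻¹ * ‖form I (w I) f‖) =
          (∏ j, (d * a j))⁻¹ * ∑ I ∈ S', I.len * ‖form I (w I) f‖ := by
        rw [Finset.mul_sum]
        refine Finset.sum_congr rfl fun I _ => ?_
        ring
      rw [this, inv_mul_le_iff₀ hprod0] at hmain
      exact hmain
    refine h5.trans ?_
    rw [Finset.prod_mul_distrib, Finset.prod_const, Finset.card_univ, Fintype.card_fin]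
    have hd256 : d ^ 4 ≤ 256 := by
      calc d ^ 4 ≤ 4 ^ 4 := pow_le_pow_left₀ hd0.le hd4 4
        _ = 256 := by norm_num
    have hpa : 0 ≤ ∏ j, a j := Finset.prod_nonneg fun j _ => (ha0 j).le
    have hXJ : 0 ≤ X * J.len := mul_nonneg hX (cell_len_nonneg J)
    calc d ^ 4 * (∏ j, a j) * (X * J.len) ≤ 256 * (∏ j, a j) * (X * J.len) := by gcongr
      _ = 256 * X * (∏ j, a j) * J.len := by ring

end Claimed.Agent.R258
end

/-! ## Part Unnorm -/

/-
Row 258, block [S2] (outer.tex, architect helper145), package P-S2-UNNORM.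

First half of Lemma 2.4 (outer reduction): removal of the normalization by the stopping time argument,
`NormalizedBound c0 C0 q N X → LocalBound c0 C0 q N (1024/3 * X)`   (`(4/3) 16^(4/q) ≤ (4/3) 256` for `q ≥ 2`).

PROOF (everything in `ℝ≥0∞`; `P x := ∏ j, Mq q (f j) x`, `e I := I.len * ‖form I (w I) f‖`).
* `s2_tree_step` (`Tree.lean`) = ONE stopping step at the root `J`.
* `s2_local_claim`: induction on `n` with `s0 + N ≤ J.depth + n`.  `n = 0`: no cell of `S` is `≤ J` (`cell_depth_le_of_le`).  Step: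
  if some `nnorm q J (f j) = 0` all forms vanish (`s2_nnorm_eq_zero`, `cell_set_subset`, `s2_form_zero_of_ae`).  Otherwise `s2_tree_step`,
  `cell_sum_stops`; with `E = J.set \ ⋃ stops` : `volume E ≥ (3/4) |J|` (`cell_volume_antichain`), so by `s2_prod_nnorm_le`
  `256 X (∏ a_j) |J| ≤ (4/3) 256 X ∫_E P`; the induction hypothesis at each stop (`cell_depth_lt_of_lt`) and `cell_sum_lintegral_antichain`
  give `∑_K ∑_{I ≤ K} e I ≤ (1024/3) X ∫_{⋃ stops} P`; `∫_E + ∫_{⋃ stops} = ∫_J` (`lintegral_inter_add_diff`/`lintegral_union`).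
* `s2_localBound_of_normalized`: the roots are the ancestors of depth `s0` of the cells of `S` (`I.anc (I.depth - s0).toNat`); they have one depth, so are disjoint
  (`s2_same_depth_sum_le`); `Finset.sum_fiberwise_of_maps_to`; a cell `I ∈ S` is below the root `J` iff `J` is its ancestor of depth `s0`
  (`cell_chain_of_depth`, `cell_eq_of_le_of_depth`).
-/

section
open MeasureTheory
open scoped ENNReal ContDiff

namespace Claimed.Agent.R258

open Classical in
/-- the localized claim, by induction on the number of remaining generations -/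
theorem s2_local_claim_aux {c0 C0 q : ℝ} {N : ℕ} {X : ℝ} (hc0 : 0 < c0) (hq : 2 ≤ q)
    (h : NormalizedBound c0 C0 q N X) (S : Finset Cell) (s0 : ℤ)
    (hS : ∀ I ∈ S, s0 ≤ I.depth ∧ I.depth < s0 + N) (w : Cell → ℝ × ℝ → ℂ)
    (hw : ∀ I ∈ S, Admissible c0 C0 I (w I)) (f : Fin 4 → ℝ → ℂ) (hf : ∀ j, BddCS (f j)) (n : ℕ) :
    ∀ J : Cell, s0 + N ≤ J.depth + n →
    ENNReal.ofReal (∑ I ∈ S.filter (fun I => I ≤ J), I.len * ‖form I (w I) f‖) ≤
      ENNReal.ofReal (1024 / 3 * X) * ∫⁻ x in J.set, ∏ j : Fin 4, Mq q (f j) x := by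
  have hq0 : 0 < q := by linarith
  have hX : 0 ≤ X := s2_normalizedBound_nonneg hq0 h
  have he0 : ∀ I : Cell, 0 ≤ I.len * ‖form I (w I) f‖ := fun I =>
    mul_nonneg (cell_len_nonneg I) (norm_nonneg _)
  induction n with
  | zero =>
    intro J hJ
    have hempty : S.filter (fun I => I ≤ J) = ∅ := by
      rw [Finset.filter_eq_empty_iff]
      intro I hI hIJ
      have h1 := cell_depth_le_of_le hIJ
      have h2 := (hS I hI).2
      simp only [Nat.cast_zero, add_zero] at hJ
      omega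
    rw [hempty]
    simp
  | succ n ih =>
    intro J hJ
    by_cases hzero : ∃ j, nnorm q J (f j) = 0
    · obtain ⟨j, hj⟩ := hzero
      have hae := s2_nnorm_eq_zero hq0 J (hf j) hj
      have hall : ∀ I ∈ S.filter (fun I => I ≤ J), I.len * ‖form I (w I) f‖ = 0 := by
        intro I hI
        obtain ⟨hIS, hIJ⟩ := Finset.mem_filter.1 hI
        have : form I (w I) f = 0 := by
          refine s2_form_zero_of_ae (hw I hIS) hc0 f j ?_
          filter_upwards [hae] with y hy hyI
          exact hy (cell_set_subset hIJ hyI)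
        rw [this, norm_zero, mul_zero]
      rw [Finset.sum_eq_zero hall]
      simp
    · push Not at hzero
      obtain ⟨stops, hst, hbound⟩ := s2_tree_step hq h S s0 hS w hw f hf J hzero
      set P : ℝ → ℝ≥0∞ := fun x => ∏ j : Fin 4, Mq q (f j) x with hP
      set Kc : ℝ≥0∞ := ENNReal.ofReal (1024 / 3 * X) with hKc
      set U : Set ℝ := ⋃ K ∈ stops, K.set with hU
      set E : Set ℝ := J.set \ U with hE
      have hUm : MeasurableSet U :=
        Finset.measurableSet_biUnion _ fun K _ => cell_measurableSet K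
      have hEm : MeasurableSet E := (cell_measurableSet J).diff hUm
      have hUJ : U ⊆ J.set := by
        intro y hy
        simp only [hU, Set.mem_iUnion] at hy
        obtain ⟨K, hK, hyK⟩ := hy
        exact cell_set_subset (hst.lt K hK).le hyK
      have hEU : E ∪ U = J.set := Set.sdiff_union_of_subset hUJ
      have hdisj : Disjoint E U := Set.disjoint_sdiff_left
      have hlen : 0 < J.len := cell_len_pos J
      -- measure of `E`
      have hvolU : volume U ≤ ENNReal.ofReal (1 / 4 * J.len) := by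
        rw [hU, cell_volume_antichain hst.anti]
        exact ENNReal.ofReal_le_ofReal hst.len
      have hvolE : ENNReal.ofReal (3 / 4 * J.len) ≤ volume E := by
        have h1 : volume J.set = volume E + volume U := by
          rw [← hEU, measure_union hdisj hUm]
        rw [cell_volume_set] at h1
        have h2 : ENNReal.ofReal J.len = ENNReal.ofReal (3 / 4 * J.len) + ENNReal.ofReal (1 / 4 * J.len) := by
          rw [← ENNReal.ofReal_add (by positivity) (by positivity)]
          congr 1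
          ring
        have h3 : ENNReal.ofReal (3 / 4 * J.len) + ENNReal.ofReal (1 / 4 * J.len) ≤
            volume E + ENNReal.ofReal (1 / 4 * J.len) := by
          rw [← h2, h1]
          gcongr
        exact (ENNReal.add_le_add_iff_right ENNReal.ofReal_ne_top).1 h3
      -- the retained part
      have hpa : 0 ≤ ∏ j, nnorm q J (f j) := Finset.prod_nonneg fun j _ => nnorm_nonneg _ _ _
      have hfirst : ENNReal.ofReal (∑ I ∈ S.filter (fun I => I ≤ J ∧ cellRetained stops I),
          I.len * ‖form I (w I) f‖) ≤ Kc * ∫⁻ x in E, P x := by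
        calc ENNReal.ofReal (∑ I ∈ S.filter (fun I => I ≤ J ∧ cellRetained stops I),
              I.len * ‖form I (w I) f‖)
            ≤ ENNReal.ofReal (256 * X * (∏ j, nnorm q J (f j)) * J.len) :=
              ENNReal.ofReal_le_ofReal hbound
          _ = Kc * (ENNReal.ofReal (3 / 4 * J.len) * ENNReal.ofReal (∏ j, nnorm q J (f j))) := by
              rw [hKc, ← ENNReal.ofReal_mul (by positivity), ← ENNReal.ofReal_mul (by positivity)]
              congr 1
              ring
          _ ≤ Kc * (volume E * ENNReal.ofReal (∏ j, nnorm q J (f j))) := by gcongr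
          _ ≤ Kc * ∫⁻ x in E, P x := by
              gcongr
              exact s2_prod_nnorm_le hq0 J hf hEm Set.sdiff_subset
      -- the stopped part
      have hsecond : ∑ K ∈ stops, ENNReal.ofReal (∑ I ∈ S.filter (fun I => I ≤ K),
          I.len * ‖form I (w I) f‖) ≤ Kc * ∫⁻ x in U, P x := by
        rw [hU, ← cell_sum_lintegral_antichain hst.anti, Finset.mul_sum]
        refine Finset.sum_le_sum fun K hK => ih K ?_
        have := cell_depth_lt_of_lt (hst.lt K hK)
        push_cast at hJ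
        omega
      rw [cell_sum_stops (fun K hK => (hst.lt K hK).le) hst.anti S
        (fun I => I.len * ‖form I (w I) f‖),
        ENNReal.ofReal_add (Finset.sum_nonneg fun I _ => he0 I)
          (Finset.sum_nonneg fun K _ => Finset.sum_nonneg fun I _ => he0 I),
        ENNReal.ofReal_sum_of_nonneg (fun K _ => Finset.sum_nonneg fun I _ => he0 I)]
      calc _ ≤ (Kc * ∫⁻ x in E, P x) + Kc * ∫⁻ x in U, P x := add_le_add hfirst hsecond
        _ = Kc * ∫⁻ x in J.set, P x := by
            rw [← mul_add, ← lintegral_union hUm hdisj, hEU]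

open Classical in
/-- the localized claim -/
theorem s2_local_claim {c0 C0 q : ℝ} {N : ℕ} {X : ℝ} (hc0 : 0 < c0) (hq : 2 ≤ q)
    (h : NormalizedBound c0 C0 q N X) (S : Finset Cell) (s0 : ℤ)
    (hS : ∀ I ∈ S, s0 ≤ I.depth ∧ I.depth < s0 + N) (w : Cell → ℝ × ℝ → ℂ)
    (hw : ∀ I ∈ S, Admissible c0 C0 I (w I)) (f : Fin 4 → ℝ → ℂ) (hf : ∀ j, BddCS (f j)) (J : Cell) :
    ENNReal.ofReal (∑ I ∈ S.filter (fun I => I ≤ J), I.len * ‖form I (w I) f‖) ≤
      ENNReal.ofReal (1024 / 3 * X) * ∫⁻ x in J.set, ∏ j : Fin 4, Mq q (f j) x := by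
  refine s2_local_claim_aux hc0 hq h S s0 hS w hw f hf (s0 + N - J.depth).toNat J ?_
  have := Int.self_le_toNat (s0 + N - J.depth)
  omega

/-- Removal of the normalization. -/
theorem s2_localBound_of_normalized {c0 C0 q : ℝ} {N : ℕ} {X : ℝ} (hc0 : 0 < c0) (hq : 2 ≤ q)
    (h : NormalizedBound c0 C0 q N X) : LocalBound c0 C0 q N (1024 / 3 * X) := by
  classical
  intro S s0 hS w hw f hf
  have he0 : ∀ I : Cell, 0 ≤ I.len * ‖form I (w I) f‖ := fun I =>
    mul_nonneg (cell_len_nonneg I) (norm_nonneg _)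
  set g : Cell → Cell := fun I => I.anc (I.depth - s0).toNat with hg
  set roots : Finset Cell := S.image g with hroots
  have hgd : ∀ I ∈ S, (g I).depth = s0 := by
    intro I hI
    have := (hS I hI).1
    simp only [hg, cell_depth_anc]
    rw [Int.toNat_of_nonneg (by omega)]
    omega
  have hrd : ∀ J ∈ roots, J.depth = s0 := by
    intro J hJ
    obtain ⟨I, hI, rfl⟩ := Finset.mem_image.1 hJ
    exact hgd I hI
  have hfilter : ∀ J ∈ roots, S.filter (fun I => g I = J) = S.filter (fun I => I ≤ J) := by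
    intro J hJ
    refine Finset.filter_congr fun I hI => ⟨?_, ?_⟩
    · rintro rfl
      exact cell_le_anc _ _
    · intro hIJ
      exact (cell_existsUnique_anc (hS I hI).1).unique ⟨hgd I hI, cell_le_anc _ _⟩ ⟨hrd J hJ, hIJ⟩
  rw [← Finset.sum_fiberwise_of_maps_to (s := S) (t := roots) (g := g)
    (fun I hI => Finset.mem_image_of_mem g hI),
    ENNReal.ofReal_sum_of_nonneg (fun J _ => Finset.sum_nonneg fun I _ => he0 I)]
  calc ∑ J ∈ roots, ENNReal.ofReal (∑ I ∈ S with g I = J, I.len * ‖form I (w I) f‖)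
      ≤ ∑ J ∈ roots, ENNReal.ofReal (1024 / 3 * X) * ∫⁻ x in J.set, ∏ j : Fin 4, Mq q (f j) x := by
        refine Finset.sum_le_sum fun J hJ => ?_
        rw [hfilter J hJ]
        exact s2_local_claim hc0 hq h S s0 hS w hw f hf J
    _ = ENNReal.ofReal (1024 / 3 * X) * ∑ J ∈ roots, ∫⁻ x in J.set, ∏ j : Fin 4, Mq q (f j) x := by
        rw [Finset.mul_sum]
    _ ≤ ENNReal.ofReal (1024 / 3 * X) * ∫⁻ x, ∏ j : Fin 4, Mq q (f j) x := by
        gcongr
        exact s2_same_depth_sum_le roots s0 hrd _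

end Claimed.Agent.R258
end

/-! ## Part Absorb -/

/-
Row 258, block [S2] (outer.tex, architect helper145).  ABSORPTION (glue, proved).

`NormalizedGoal c0 C0` (Proposition 2.3) implies Theorem 2.2: `C_N(q)` is bounded independently of `N`.
No infimum is used: starting from `C_N ≤ C₁ N` the implication `C_N ≤ B ⟹ C_N ≤ D + B / 2` is iterated.
-/

section
open MeasureTheory
open scoped ENNReal ContDiff

namespace Claimed.Agent.R258

/-- Theorem 2.2 (uniform local estimate) from Proposition 2.3. -/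
theorem s2_uniform {c0 C0 : ℝ} (hc0 : 0 < c0) (h : NormalizedGoal c0 C0) :
    ∃ q : ℝ, 2 < q ∧ q < 3 ∧ ∃ C : ℝ, 0 ≤ C ∧ ∀ N : ℕ, LocalBound c0 C0 q N C := by
  obtain ⟨q, hq2, hq3, hA⟩ := h
  obtain ⟨A, hA⟩ := hA (3 / 2048) (by norm_num)
  set A' : ℝ := max A 0 with hA'
  have hA'0 : 0 ≤ A' := le_max_right _ _
  set D : ℝ := 1024 / 3 * A' with hD
  have hD0 : 0 ≤ D := by positivity
  refine ⟨q, hq2, hq3, 2 * D + 1, by positivity, fun N => ?_⟩
  set B : ℝ := |(C0 * 2) ^ (C0 * 2) * N| with hB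
  have hB0 : 0 ≤ B := abs_nonneg _
  have key : ∀ k : ℕ, LocalBound c0 C0 q N (2 * D + B / 2 ^ k) := by
    intro k
    induction k with
    | zero =>
      refine s2_localBound_mono ?_ (s2_localBound_N hc0 hq2.le N)
      have : (C0 * 2) ^ (C0 * 2) * (N : ℝ) ≤ B := le_abs_self _
      simp only [pow_zero, div_one]
      linarith
    | succ k ih =>
      have hCN : 0 ≤ 2 * D + B / 2 ^ k := by positivity
      have h1 := hA N _ hCN ih
      have h2 : NormalizedBound c0 C0 q N (A' + 3 / 2048 * (2 * D + B / 2 ^ k)) :=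
        s2_normalizedBound_mono (by have := le_max_left A 0; linarith) h1
      have h3 := s2_localBound_of_normalized hc0 hq2.le h2
      refine s2_localBound_mono (le_of_eq ?_) h3
      rw [pow_succ, hD]
      field_simp
      ring
  obtain ⟨k, hk⟩ : ∃ k : ℕ, B / 2 ^ k ≤ 1 := by
    obtain ⟨k, hk⟩ := pow_unbounded_of_one_lt B (by norm_num : (1 : ℝ) < 2)
    exact ⟨k, by rw [div_le_one (by positivity)]; exact hk.le⟩
  exact s2_localBound_mono (by linarith) (key k)

end Claimed.Agent.R258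
end

/-! ## Part Sum -/

/-
Row 258, block [S2] (outer.tex, architect helper145), package P-S2-SUM.
PROOF NOTES.
* `s2_sum_bound`: a finite `S` has depths in some `[s0, s0+N)` (`S = ∅` trivial; else `s0 = min`, `N = (max - min + 1).toNat`; or bound `|depth| ≤ D` by
  `Finset.exists_le`-type arguments).  `LocalBound`, then `mx_four_prod_le_eLpNorm` (`R258/Max/Lp.lean`) and `eLpNorm (f 0) ⊤ ≤ 1`
  (`eLpNormEssSup_le_of_ae_bound`/`eLpNorm_exponent_top`).
-/

section
open MeasureTheory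
open scoped ENNReal ContDiff

namespace Claimed.Agent.R258

/-- P-S2-SUM: the uniform local estimate + the maximal theorem. -/
theorem s2_sum_bound {c0 C0 q C : ℝ} (hq : 0 < q) (hq3 : q < 3) (hLB : ∀ N : ℕ, LocalBound c0 C0 q N C)
    (S : Finset Cell) (w : Cell → ℝ × ℝ → ℂ) (hw : ∀ I ∈ S, Admissible c0 C0 I (w I))
    (f : Fin 4 → ℝ → ℂ) (hf : ∀ j, BddCS (f j)) (h0 : ∀ x, ‖f 0 x‖ ≤ 1) :
    ENNReal.ofReal (∑ I ∈ S, I.len * ‖form I (w I) f‖) ≤
      ENNReal.ofReal C * mxCp (3 / q) *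
        (eLpNorm (f 1) 3 volume * eLpNorm (f 2) 3 volume * eLpNorm (f 3) 3 volume) := by
  set D : ℕ := ∑ I ∈ S, I.depth.natAbs with hD
  have hdepth : ∀ I ∈ S, -(D : ℤ) ≤ I.depth ∧ I.depth < -(D : ℤ) + ((2 * D + 1 : ℕ) : ℤ) := by
    intro I hI
    have h1 : I.depth.natAbs ≤ D := Finset.single_le_sum (f := fun I : Cell => I.depth.natAbs)
      (fun _ _ => Nat.zero_le _) hI
    push_cast
    omega
  have h1 := hLB (2 * D + 1) S (-(D : ℤ)) hdepth w hw f hf
  have h2 := mx_four_prod_le_eLpNorm hq hq3 f (fun j => (hf j).meas.aestronglyMeasurable)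
  have h3 : eLpNorm (f 0) ⊤ volume ≤ 1 := by
    rw [eLpNorm_exponent_top]
    have := eLpNormEssSup_le_of_ae_bound (μ := volume) (f := f 0) (C := 1)
      (Filter.Eventually.of_forall h0)
    simpa using this
  calc ENNReal.ofReal (∑ I ∈ S, I.len * ‖form I (w I) f‖)
      ≤ ENNReal.ofReal C * ∫⁻ x : ℝ, ∏ j : Fin 4, Mq q (f j) x := h1
    _ ≤ ENNReal.ofReal C * (mxCp (3 / q) * (eLpNorm (f 0) ⊤ volume * eLpNorm (f 1) 3 volume *
          eLpNorm (f 2) 3 volume * eLpNorm (f 3) 3 volume)) := by gcongr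
    _ ≤ ENNReal.ofReal C * (mxCp (3 / q) * (1 * eLpNorm (f 1) 3 volume *
          eLpNorm (f 2) 3 volume * eLpNorm (f 3) 3 volume)) := by gcongr
    _ = ENNReal.ofReal C * mxCp (3 / q) *
        (eLpNorm (f 1) 3 volume * eLpNorm (f 2) 3 volume * eLpNorm (f 3) 3 volume) := by
        rw [one_mul, ← mul_assoc]

end Claimed.Agent.R258
end
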