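/-
Row 258, block [S2] (outer.tex, architect helper145).  PACKED FILE (parts: Scale, ModelId, Model, KFacts, Dual, PVgen, PV, Main); each part keeps its original header.
-/
import Claimed.Agent.R258.S2.Ker
import Claimed.Agent.R258.S2.Unnorm
import Mathlib
import Claimed.Prelude.Def_0426

set_option autoImplicit false

/-! ## Part Scale -/

/-
Row 258, block [S2] (outer.tex, architect helper145), package P-S2-SCALE: at every dyadic scale the three translates of the standard grid reproduce `2^s Φ''''(2^s t)`.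
PROOF NOTES.
* `s2_reindex`: `(σ, m) ↦ σ 2^u + 3 m` is a bijection `Fin 3 × ℤ → ℤ`, because `2^u` is invertible mod `3` (`2^u % 3 ∈ {1,2}` by induction).
* `s2_scale_identity`: with `s = s0 + u`, `X = x 2^s` : `s2w W ⟨s,m⟩ (x - σ 2^{-s0}/3, t) = W (X - (σ 2^u + 3 m)/3, t 2^s)` (`Cell.left`, `Cell.len`, `zpow_add₀`, `zpow_neg`).
  The image `F` of `Fin 3 × Icc (-M) M` under the injective map of `s2_reindex` contains every `n` with `1/4 ≤ X - n/3 ≤ 3/4`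
  (`|n| ≤ 3|X| + 3`, `m = (n - σ 2^u)/3`, `|m| ≤ |X| + 1 + 2^u`); `Finset.sum_image`, `Finset.sum_product'`, `S2Ker.part`.
  Finally `2^s * ((χ(2 (t 2^s)) - χ(t 2^s)) / (t 2^s)) = (χ(2^{s+1} t) - χ(2^s t)) / t` (also for `t = 0`: both sides are `0`).
* `s2K_telescope`: `Finset.sum_range_sub` after `← Finset.sum_div`.
-/

section
open MeasureTheory
open scoped ENNReal ContDiff

namespace Claimed.Agent.R258

theorem s2_two_pow_mod (u : ℕ) : (2 : ℤ) ^ u % 3 = 1 ∨ (2 : ℤ) ^ u % 3 = 2 := by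
  induction u with
  | zero => left; norm_num
  | succ k ih => rw [pow_succ]; omega

/-- P-S2-SCALE -/
theorem s2_reindex (u : ℕ) :
    Function.Bijective (fun a : Fin 3 × ℤ => ((a.1 : ℕ) : ℤ) * 2 ^ u + 3 * a.2) := by
  have hmod := s2_two_pow_mod u
  generalize (2 : ℤ) ^ u = e at hmod
  constructor
  · rintro ⟨σ, m⟩ ⟨σ', m'⟩ h
    simp only at h
    fin_cases σ <;> fin_cases σ' <;> simp at h ⊢ <;> omega
  · intro n
    have h3 : n % 3 = 0 ∨ n % 3 = 1 ∨ n % 3 = 2 := by omega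
    have key : ∃ σ : Fin 3, (n - ((σ : ℕ) : ℤ) * e) % 3 = 0 := by
      rcases hmod with h | h <;> rcases h3 with h' | h' | h'
      · exact ⟨0, by simp; omega⟩
      · exact ⟨1, by simp; omega⟩
      · exact ⟨2, by simp; omega⟩
      · exact ⟨0, by simp; omega⟩
      · exact ⟨2, by simp; omega⟩
      · exact ⟨1, by simp; omega⟩
    obtain ⟨σ, hσ⟩ := key
    refine ⟨(σ, (n - ((σ : ℕ) : ℤ) * e) / 3), ?_⟩
    simp only
    generalize ((σ : ℕ) : ℤ) * e = y at hσ ⊢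
    omega

theorem s2w_cell_eq (W : ℝ × ℝ → ℂ) (s0 : ℤ) (u : ℕ) (σ : Fin 3) (m : ℤ) (x t : ℝ) :
    s2w W ⟨s0 + (u : ℤ), m⟩ (x - s2tau s0 σ, t) =
      W (x * (2 : ℝ) ^ (s0 + (u : ℤ)) - ((((σ : ℕ) : ℤ) * 2 ^ u + 3 * m : ℤ) : ℝ) / 3,
        t * (2 : ℝ) ^ (s0 + (u : ℤ))) := by
  have h2 : (2 : ℝ) ≠ 0 := two_ne_zero
  unfold s2w s2tau Cell.left Cell.len
  simp only
  congr 1
  rw [Prod.mk.injEq]
  constructor
  · rw [zpow_neg, zpow_neg, zpow_add₀ h2, zpow_natCast]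
    have h1 : (2 : ℝ) ^ s0 ≠ 0 := zpow_ne_zero _ h2
    have h3 : (2 : ℝ) ^ u ≠ 0 := pow_ne_zero _ h2
    push_cast
    field_simp
    ring
  · rw [zpow_neg, div_inv_eq_mul]

/-- P-S2-SCALE: at every scale the three translated grids reproduce the kernel `2^s Φ''''(2^s t)`. -/
theorem s2_scale_identity {C0 : ℝ} {W : ℝ × ℝ → ℂ} {χ : ℝ → ℝ} (h : S2Ker C0 W χ) (s0 : ℤ) (u M : ℕ)
    (x t : ℝ) (hM : |x| * (2 : ℝ) ^ (s0 + (u : ℤ)) + 2 ^ u + 2 ≤ M) :
    (((2 : ℝ) ^ (s0 + (u : ℤ)) : ℝ) : ℂ) * ∑ σ : Fin 3, ∑ m ∈ Finset.Icc (-(M : ℤ)) M,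
        s2w W ⟨s0 + (u : ℤ), m⟩ (x - s2tau s0 σ, t) =
      (s2K χ ((2 : ℝ) ^ (s0 + (u : ℤ))) ((2 : ℝ) ^ (s0 + (u : ℤ) + 1)) t : ℂ) := by
  classical
  set r : ℝ := (2 : ℝ) ^ (s0 + (u : ℤ)) with hr
  have hr0 : 0 < r := zpow_pos (by norm_num) _
  set φ : Fin 3 × ℤ → ℤ := fun a => ((a.1 : ℕ) : ℤ) * 2 ^ u + 3 * a.2 with hφ
  have hbij := s2_reindex u
  set F : Finset ℤ := ((Finset.univ : Finset (Fin 3)) ×ˢ Finset.Icc (-(M : ℤ)) M).image φ with hF
  have hsum : ∑ σ : Fin 3, ∑ m ∈ Finset.Icc (-(M : ℤ)) M, s2w W ⟨s0 + (u : ℤ), m⟩ (x - s2tau s0 σ, t)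
      = ∑ n ∈ F, W (x * r - (n : ℝ) / 3, t * r) := by
    rw [hF, Finset.sum_image (fun a _ b _ hab => hbij.1 hab), Finset.sum_product]
    refine Finset.sum_congr rfl fun σ _ => Finset.sum_congr rfl fun m _ => ?_
    exact s2w_cell_eq W s0 u σ m x t
  have hcover : ∀ n : ℤ, 1 / 4 ≤ x * r - (n : ℝ) / 3 → x * r - (n : ℝ) / 3 ≤ 3 / 4 → n ∈ F := by
    intro n h1 h2
    obtain ⟨⟨σ, m⟩, hσm⟩ := hbij.2 n
    rw [hF, Finset.mem_image]
    refine ⟨(σ, m), ?_, hσm⟩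
    rw [Finset.mem_product]
    refine ⟨Finset.mem_univ _, ?_⟩
    simp only at hσm
    have hn : (n : ℝ) = ((σ : ℕ) : ℝ) * 2 ^ u + 3 * (m : ℝ) := by
      rw [← hσm]; push_cast; ring
    have hσ2 : ((σ : ℕ) : ℝ) ≤ 2 := by
      have : (σ : ℕ) ≤ 2 := by omega
      exact_mod_cast this
    have hσ0 : (0 : ℝ) ≤ ((σ : ℕ) : ℝ) := Nat.cast_nonneg _
    have hu0 : (0 : ℝ) < 2 ^ u := by positivity
    have hx1 : x * r ≤ |x| * r := mul_le_mul_of_nonneg_right (le_abs_self x) hr0.le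
    have hx2 : -(|x| * r) ≤ x * r := by
      have := mul_le_mul_of_nonneg_right (neg_abs_le x) hr0.le
      linarith
    have hσu : ((σ : ℕ) : ℝ) * 2 ^ u ≤ 2 * 2 ^ u := mul_le_mul_of_nonneg_right hσ2 hu0.le
    have hσu0 : 0 ≤ ((σ : ℕ) : ℝ) * 2 ^ u := mul_nonneg hσ0 hu0.le
    rw [Finset.mem_Icc]
    constructor
    · have : (-(M : ℝ)) ≤ (m : ℝ) := by nlinarith
      exact_mod_cast this
    · have : (m : ℝ) ≤ (M : ℝ) := by nlinarith
      exact_mod_cast this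
  rw [hsum, h.part (x * r) (t * r) F hcover]
  rw [← Complex.ofReal_mul]
  congr 1
  unfold s2K
  have hr1 : (2 : ℝ) ^ (s0 + (u : ℤ) + 1) = 2 * r := by
    rw [zpow_add_one₀ (two_ne_zero), hr]; ring
  rw [hr1]
  by_cases ht : t = 0
  · simp [ht]
  · field_simp

/-- P-S2-SCALE -/
theorem s2K_telescope (χ : ℝ → ℝ) (s0 : ℤ) (N : ℕ) (t : ℝ) :
    ∑ u ∈ Finset.range N, s2K χ ((2 : ℝ) ^ (s0 + (u : ℤ))) ((2 : ℝ) ^ (s0 + (u : ℤ) + 1)) t =
      s2K χ ((2 : ℝ) ^ s0) ((2 : ℝ) ^ (s0 + (N : ℤ))) t := by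
  unfold s2K
  rw [← Finset.sum_div]
  congr 1
  have := Finset.sum_range_sub (fun u : ℕ => χ ((2 : ℝ) ^ (s0 + (u : ℤ)) * t)) N
  simp only [Nat.cast_zero, add_zero] at this
  rw [← this]
  refine Finset.sum_congr rfl fun u _ => ?_
  push_cast
  rw [add_assoc]

end Claimed.Agent.R258
end

/-! ## Part ModelId -/

/-
Row 258, block [S2] (outer.tex, architect helper145), package P-S2-MODEL: the truncated four-linear form is a finite sum of local forms.
PROOF NOTES.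
* `s2_form_shift`: translation invariance of the Lebesgue measure of `ℝ × ℝ` (`integral_add_right_eq_self _ ((τ, 0) : ℝ × ℝ)` or `integral_sub_right_eq_self`).
* `s2_model_identity`: let `g 0` vanish off `[-R,R]`; take `M ≥ R 2^{s0+N} + 2^N + 2` (natural number).
  Right side `= ∑_σ ∑_I ∫ (2^s s2w W I (p.1 - τ_σ, p.2)) ∏ g_j(p.1 + j p.2)` by `s2_form_shift` (`len * (len^2)⁻¹ = 2^s`); every term is integrable
  (`s2_form_integrable` for the shifted functions + the same translation), `integral_finsetSum`; the integrands agree pointwise: if `g 0 p.1 = 0` both vanish,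
  otherwise `|p.1| ≤ R` and `s2_scale_identity`, `s2K_telescope` apply.  (`j = 0` factor: `p.1 + 0 * p.2 = p.1`.)
-/

section
open MeasureTheory
open scoped ENNReal ContDiff

namespace Claimed.Agent.R258

/-- P-S2-MODEL -/
theorem s2_form_shift (I : Cell) (w : ℝ × ℝ → ℂ) (g : Fin 4 → ℝ → ℂ) (τ : ℝ) :
    form I w (fun j y => g j (y + τ)) =
      ((I.len ^ 2)⁻¹ : ℝ) * ∫ p : ℝ × ℝ, w (p.1 - τ, p.2) * ∏ j : Fin 4, g j (p.1 + (j : ℝ) * p.2) := by
  unfold form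
  congr 1
  rw [← integral_add_right_eq_self
    (fun p : ℝ × ℝ => w (p.1 - τ, p.2) * ∏ j : Fin 4, g j (p.1 + (j : ℝ) * p.2)) ((τ, 0) : ℝ × ℝ)]
  refine integral_congr_ae (Filter.Eventually.of_forall fun p => ?_)
  simp only [Prod.fst_add, Prod.snd_add, add_zero, add_sub_cancel_right]
  congr 1
  refine Finset.prod_congr rfl fun j _ => ?_
  congr 1
  ring

theorem s2_shift_integrable {C0 : ℝ} {W : ℝ × ℝ → ℂ} {χ : ℝ → ℝ} (h : S2Ker C0 W χ)
    (g : Fin 4 → ℝ → ℂ) (hg : ∀ j, BddCS (g j)) (I : Cell) (τ : ℝ) :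
    Integrable (fun p : ℝ × ℝ => s2w W I (p.1 - τ, p.2) * ∏ j : Fin 4, g j (p.1 + (j : ℝ) * p.2))
      volume := by
  have h1 := s2_form_integrable (s2w_admissible h I) (by norm_num : (0 : ℝ) < 1 / 8)
    (f := fun j y => g j (y + τ)) (fun j => s2_bddcs_shift (hg j) τ)
  have h2 := h1.comp_sub_right ((τ, 0) : ℝ × ℝ)
  refine h2.congr (Filter.Eventually.of_forall fun p => ?_)
  simp only [Prod.fst_sub, Prod.snd_sub, sub_zero]
  have : ∀ j : Fin 4, g j (p.1 - τ + (j : ℝ) * p.2 + τ) = g j (p.1 + (j : ℝ) * p.2) := fun j => by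
    congr 1; ring
  have hp : p - ((τ, 0) : ℝ × ℝ) = (p.1 - τ, p.2) := by
    ext <;> simp
  simp only [this, hp]

theorem s2_len_mul_inv (I : Cell) : (I.len : ℂ) * (((I.len ^ 2)⁻¹ : ℝ) : ℂ) = (((2 : ℝ) ^ I.depth : ℝ) : ℂ) := by
  rw [← Complex.ofReal_mul]
  congr 1
  have h0 : I.len ≠ 0 := cell_len_ne_zero I
  have : I.len * (I.len ^ 2)⁻¹ = I.len⁻¹ := by field_simp
  rw [this]
  unfold Cell.len
  rw [zpow_neg, inv_inv]

theorem s2_sum_cells {β : Type*} [AddCommMonoid β] (s0 : ℤ) (N M : ℕ) (F : Cell → β) :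
    ∑ I ∈ s2cells s0 N M, F I =
      ∑ u ∈ Finset.range N, ∑ m ∈ Finset.Icc (-(M : ℤ)) M, F ⟨s0 + (u : ℤ), m⟩ := by
  unfold s2cells
  rw [Finset.sum_image, Finset.sum_product]
  rintro ⟨u, m⟩ _ ⟨u', m'⟩ _ hab
  simp only [Cell.mk.injEq, add_right_inj, Nat.cast_inj] at hab
  exact Prod.ext hab.1 hab.2

/-- P-S2-MODEL: the truncated form is a finite sum of local forms on three translates of the standard grid. -/
theorem s2_model_identity {C0 : ℝ} {W : ℝ × ℝ → ℂ} {χ : ℝ → ℝ} (h : S2Ker C0 W χ)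
    (g : Fin 4 → ℝ → ℂ) (hg : ∀ j, BddCS (g j)) (s0 : ℤ) (N : ℕ) :
    ∃ M : ℕ, s2Lam (s2K χ ((2 : ℝ) ^ s0) ((2 : ℝ) ^ (s0 + (N : ℤ)))) g =
      ∑ σ : Fin 3, ∑ I ∈ s2cells s0 N M,
        (I.len : ℂ) * form I (s2w W I) (fun j y => g j (y + s2tau s0 σ)) := by
  classical
  obtain ⟨R, hR⟩ := (hg 0).supp
  set M : ℕ := ⌈|R| * (2 : ℝ) ^ (s0 + (N : ℤ)) + 2 ^ N + 2⌉₊ with hMdef
  have hMle : |R| * (2 : ℝ) ^ (s0 + (N : ℤ)) + 2 ^ N + 2 ≤ M := Nat.le_ceil _
  refine ⟨M, ?_⟩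
  set F : Fin 3 → Cell → ℝ × ℝ → ℂ := fun σ I p =>
    (((2 : ℝ) ^ I.depth : ℝ) : ℂ) *
      (s2w W I (p.1 - s2tau s0 σ, p.2) * ∏ j : Fin 4, g j (p.1 + (j : ℝ) * p.2)) with hF
  have hFint : ∀ σ I, Integrable (F σ I) volume := fun σ I =>
    (s2_shift_integrable h g hg I (s2tau s0 σ)).const_mul _
  have hterm : ∀ σ I, (I.len : ℂ) * form I (s2w W I) (fun j y => g j (y + s2tau s0 σ)) =
      ∫ p : ℝ × ℝ, F σ I p := by
    intro σ I
    rw [s2_form_shift, hF]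
    simp only
    rw [integral_const_mul, ← mul_assoc, s2_len_mul_inv]
  simp_rw [hterm]
  have hswap : ∑ σ : Fin 3, ∑ I ∈ s2cells s0 N M, ∫ p : ℝ × ℝ, F σ I p =
      ∫ p : ℝ × ℝ, ∑ σ : Fin 3, ∑ I ∈ s2cells s0 N M, F σ I p := by
    rw [integral_finsetSum _ (fun σ _ => integrable_finsetSum _ (fun I _ => hFint σ I))]
    refine Finset.sum_congr rfl fun σ _ => ?_
    rw [integral_finsetSum _ (fun I _ => hFint σ I)]
  rw [hswap]
  unfold s2Lam
  refine integral_congr_ae (Filter.Eventually.of_forall fun p => ?_)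
  obtain ⟨x, t⟩ := p
  simp only
  by_cases hx : g 0 x = 0
  · have hprod : ∏ j : Fin 4, g j (x + (j : ℝ) * t) = 0 := by
      refine Finset.prod_eq_zero (Finset.mem_univ (0 : Fin 4)) ?_
      simpa using hx
    simp [hF, hprod]
  · have hxR : |x| ≤ R := by
      by_contra hcon
      exact hx (hR x (not_le.1 hcon))
    have hxR' : |x| ≤ |R| := hxR.trans (le_abs_self R)
    set Pg : ℂ := ∏ j : Fin 4, g j (x + (j : ℝ) * t) with hPg
    have h1 : ∑ σ : Fin 3, ∑ I ∈ s2cells s0 N M, F σ I (x, t) =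
        (∑ u ∈ Finset.range N, (((2 : ℝ) ^ (s0 + (u : ℤ)) : ℝ) : ℂ) *
          ∑ σ : Fin 3, ∑ m ∈ Finset.Icc (-(M : ℤ)) M,
            s2w W ⟨s0 + (u : ℤ), m⟩ (x - s2tau s0 σ, t)) * Pg := by
      simp_rw [s2_sum_cells]
      rw [Finset.sum_comm, Finset.sum_mul]
      refine Finset.sum_congr rfl fun u _ => ?_
      rw [Finset.mul_sum, Finset.sum_mul]
      refine Finset.sum_congr rfl fun σ _ => ?_
      rw [Finset.mul_sum, Finset.sum_mul]
      refine Finset.sum_congr rfl fun m _ => ?_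
      simp only [hF]
      ring
    rw [h1]
    congr 1
    rw [← s2K_telescope, Complex.ofReal_sum]
    refine Finset.sum_congr rfl fun u hu => ?_
    symm
    apply s2_scale_identity h
    have hu' : u ≤ N := (Finset.mem_range.1 hu).le
    have hz : (2 : ℝ) ^ (s0 + (u : ℤ)) ≤ (2 : ℝ) ^ (s0 + (N : ℤ)) :=
      zpow_le_zpow_right₀ (by norm_num) (by omega)
    have hp : (2 : ℝ) ^ u ≤ 2 ^ N := pow_le_pow_right₀ (by norm_num) hu'
    have hz0 : (0 : ℝ) ≤ (2 : ℝ) ^ (s0 + (u : ℤ)) := (zpow_pos (by norm_num) _).le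
    have : |x| * (2 : ℝ) ^ (s0 + (u : ℤ)) ≤ |R| * (2 : ℝ) ^ (s0 + (N : ℤ)) :=
      mul_le_mul hxR' hz hz0 (abs_nonneg R)
    linarith

/-- P-S2-MODEL: translation invariance of the `L^3` norm (`eLpNorm_comp_measurePreserving`, `measurePreserving_add_right`). -/
theorem s2_eLpNorm_shift (f : ℝ → ℂ) (hf : AEStronglyMeasurable f volume) (τ : ℝ) (p : ℝ≥0∞) :
    eLpNorm (fun y => f (y + τ)) p volume = eLpNorm f p volume :=
  eLpNorm_comp_measurePreserving hf (measurePreserving_add_right volume τ)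

end Claimed.Agent.R258
end

/-! ## Part Model -/

/-
Row 258, block [S2] (outer.tex, architect helper145).  The bound for the truncated kernels on the class `BddCS` (glue, proved).
-/

section
open MeasureTheory
open scoped ENNReal ContDiff

namespace Claimed.Agent.R258

/-- The bound for the truncated kernels on the class `BddCS`. -/
theorem s2_model_bound {C0 : ℝ} {W : ℝ × ℝ → ℂ} {χ : ℝ → ℝ} (h : S2Ker C0 W χ) {q C : ℝ}
    (hq : 0 < q) (hq3 : q < 3) (hLB : ∀ N : ℕ, LocalBound (1 / 8) C0 q N C)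
    (g : Fin 4 → ℝ → ℂ) (hg : ∀ j, BddCS (g j)) (h0 : ∀ x, ‖g 0 x‖ ≤ 1) (s0 : ℤ) (N : ℕ) :
    ENNReal.ofReal ‖s2Lam (s2K χ ((2 : ℝ) ^ s0) ((2 : ℝ) ^ (s0 + (N : ℤ)))) g‖ ≤
      3 * (ENNReal.ofReal C * mxCp (3 / q)) *
        (eLpNorm (g 1) 3 volume * eLpNorm (g 2) 3 volume * eLpNorm (g 3) 3 volume) := by
  obtain ⟨M, hM⟩ := s2_model_identity h g hg s0 N
  rw [hM]
  set P : ℝ≥0∞ := eLpNorm (g 1) 3 volume * eLpNorm (g 2) 3 volume * eLpNorm (g 3) 3 volume with hP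
  set A : ℝ≥0∞ := ENNReal.ofReal C * mxCp (3 / q) with hA
  have hσ : ∀ σ : Fin 3, ENNReal.ofReal (∑ I ∈ s2cells s0 N M,
      I.len * ‖form I (s2w W I) (fun j y => g j (y + s2tau s0 σ))‖) ≤ A * P := by
    intro σ
    have := s2_sum_bound hq hq3 hLB (s2cells s0 N M) (s2w W) (fun I _ => s2w_admissible h I)
      (fun j y => g j (y + s2tau s0 σ)) (fun j => s2_bddcs_shift (hg j) _) (fun x => h0 _)
    rw [s2_eLpNorm_shift _ (hg 1).meas.aestronglyMeasurable, s2_eLpNorm_shift _ (hg 2).meas.aestronglyMeasurable,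
      s2_eLpNorm_shift _ (hg 3).meas.aestronglyMeasurable] at this
    exact this
  calc ENNReal.ofReal ‖∑ σ : Fin 3, ∑ I ∈ s2cells s0 N M,
        (I.len : ℂ) * form I (s2w W I) (fun j y => g j (y + s2tau s0 σ))‖
      ≤ ENNReal.ofReal (∑ σ : Fin 3, ∑ I ∈ s2cells s0 N M,
        I.len * ‖form I (s2w W I) (fun j y => g j (y + s2tau s0 σ))‖) := by
        apply ENNReal.ofReal_le_ofReal
        refine norm_sum_le_of_le _ fun σ _ => norm_sum_le_of_le _ fun I _ => ?_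
        rw [norm_mul, Complex.norm_real, Real.norm_eq_abs, abs_of_pos (cell_len_pos I)]
    _ = ∑ σ : Fin 3, ENNReal.ofReal (∑ I ∈ s2cells s0 N M,
        I.len * ‖form I (s2w W I) (fun j y => g j (y + s2tau s0 σ))‖) := by
        refine ENNReal.ofReal_sum_of_nonneg fun σ _ => Finset.sum_nonneg fun I _ => ?_
        exact mul_nonneg (cell_len_nonneg I) (norm_nonneg _)
    _ ≤ ∑ _σ : Fin 3, A * P := Finset.sum_le_sum fun σ _ => hσ σ
    _ = 3 * A * P := by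
        rw [Finset.sum_const, Finset.card_univ, Fintype.card_fin, nsmul_eq_mul, ← mul_assoc]
        rfl

end Claimed.Agent.R258
end

/-! ## Part KFacts -/

/-
Row 258, block [S2] (outer.tex, architect helper145), package P-S2-KFACTS: elementary properties of the truncated kernels `s2K χ a b t = (χ(bt) - χ(at))/t`.
PROOF NOTES.
* `s2K_*`: `χ` is smooth with compact support, hence Lipschitz (`ContDiff.lipschitzWith_of_hasCompactSupport`; `HasCompactSupport` from `chi_supp`: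
  `HasCompactSupport.of_support_subset_isCompact (isCompact_Icc)`), so `|χ(bt) - χ(at)| ≤ L |b - a| |t|`; measurability: `χ` continuous, `Measurable.div`.
  Support: `1/a < |t|` gives `1 < |a t| ≤ |b t|`.  Oddness: `chi_even`.  `|t * s2K| ≤ 2 sup|χ|`.
* `s2K_mul_tendsto`: for `t ≠ 0`, `t * s2K χ a b t = χ (b t) - χ (a t)`; `2^(-n) t → 0` and `χ` is continuous; `2^(-n+2n) = 2^n`, `|2^n t| > 1/24` eventually, so `χ (2^n t) = 0` eventually.
-/

section
open MeasureTheory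
open scoped ENNReal ContDiff

namespace Claimed.Agent.R258

theorem s2_chi_compact {C0 : ℝ} {W : ℝ × ℝ → ℂ} {χ : ℝ → ℝ} (h : S2Ker C0 W χ) : HasCompactSupport χ := by
  refine HasCompactSupport.of_support_subset_isCompact (isCompact_Icc (a := -(1 / 24 : ℝ)) (b := 1 / 24)) ?_
  intro S hS
  exact abs_le.1 (h.chi_supp S hS)

theorem s2_chi_zero_of_lt {C0 : ℝ} {W : ℝ × ℝ → ℂ} {χ : ℝ → ℝ} (h : S2Ker C0 W χ) {S : ℝ}
    (hS : 1 / 24 < |S|) : χ S = 0 := by
  by_contra hne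
  exact absurd (h.chi_supp S hne) (not_le.2 hS)

theorem s2K_measurable {C0 : ℝ} {W : ℝ × ℝ → ℂ} {χ : ℝ → ℝ} (h : S2Ker C0 W χ) (a b : ℝ) :
    Measurable (s2K χ a b) := by
  have hc : Measurable χ := h.chi_smooth.continuous.measurable
  unfold s2K
  exact ((hc.comp (measurable_id.const_mul b)).sub (hc.comp (measurable_id.const_mul a))).div measurable_id

theorem s2K_bdd {C0 : ℝ} {W : ℝ × ℝ → ℂ} {χ : ℝ → ℝ} (h : S2Ker C0 W χ) (a b : ℝ) :
    ∃ B : ℝ, ∀ t, |s2K χ a b t| ≤ B := by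
  obtain ⟨L, hL⟩ := ContDiff.lipschitzWith_of_hasCompactSupport (s2_chi_compact h) h.chi_smooth (by simp)
  refine ⟨L * |b - a|, fun t => ?_⟩
  unfold s2K
  by_cases ht : t = 0
  · simp only [ht, div_zero, abs_zero]
    positivity
  · rw [abs_div, div_le_iff₀ (abs_pos.2 ht)]
    have := hL.dist_le_mul (b * t) (a * t)
    rw [Real.dist_eq, Real.dist_eq] at this
    calc |χ (b * t) - χ (a * t)| ≤ L * |b * t - a * t| := this
      _ = L * |b - a| * |t| := by rw [← sub_mul, abs_mul]; ring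

theorem s2K_supp {C0 : ℝ} {W : ℝ × ℝ → ℂ} {χ : ℝ → ℝ} (h : S2Ker C0 W χ) {a b : ℝ} (ha : 0 < a)
    (hab : a ≤ b) (t : ℝ) (ht : 1 / a < |t|) : s2K χ a b t = 0 := by
  have h1 : 1 < a * |t| := by
    rw [div_lt_iff₀ ha] at ht
    linarith
  have h2 : a * |t| ≤ b * |t| := mul_le_mul_of_nonneg_right hab (abs_nonneg t)
  have ha' : χ (a * t) = 0 := s2_chi_zero_of_lt h (by rw [abs_mul, abs_of_pos ha]; linarith)
  have hb' : χ (b * t) = 0 :=
    s2_chi_zero_of_lt h (by rw [abs_mul, abs_of_pos (ha.trans_le hab)]; linarith)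
  unfold s2K
  rw [ha', hb']
  simp

theorem s2K_odd {C0 : ℝ} {W : ℝ × ℝ → ℂ} {χ : ℝ → ℝ} (h : S2Ker C0 W χ) (a b t : ℝ) :
    s2K χ a b (-t) = - s2K χ a b t := by
  unfold s2K
  rw [mul_neg, mul_neg, h.chi_even, h.chi_even, div_neg]

theorem s2K_mul_eq (χ : ℝ → ℝ) (a b : ℝ) {t : ℝ} (ht : t ≠ 0) :
    t * s2K χ a b t = χ (b * t) - χ (a * t) := by
  unfold s2K
  field_simp

/-- `|t K(t)| ≤ M` uniformly in the truncation -/
theorem s2K_mul_bdd {C0 : ℝ} {W : ℝ × ℝ → ℂ} {χ : ℝ → ℝ} (h : S2Ker C0 W χ) :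
    ∃ M : ℝ, ∀ a b t : ℝ, |t * s2K χ a b t| ≤ M := by
  obtain ⟨C, hC⟩ := (s2_chi_compact h).exists_bound_of_continuous h.chi_smooth.continuous
  refine ⟨2 * C, fun a b t => ?_⟩
  have hC0 : 0 ≤ C := (norm_nonneg _).trans (hC 0)
  by_cases ht : t = 0
  · simp only [ht, zero_mul, abs_zero]
    positivity
  · rw [s2K_mul_eq χ a b ht]
    have h1 := hC (b * t)
    have h2 := hC (a * t)
    rw [Real.norm_eq_abs] at h1 h2
    calc |χ (b * t) - χ (a * t)| ≤ |χ (b * t)| + |χ (a * t)| := abs_sub _ _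
      _ ≤ 2 * C := by linarith

/-- `t K_n(t) → - χ(0)` for `t ≠ 0` -/
theorem s2K_mul_tendsto {C0 : ℝ} {W : ℝ × ℝ → ℂ} {χ : ℝ → ℝ} (h : S2Ker C0 W χ) {t : ℝ} (ht : t ≠ 0) :
    Filter.Tendsto (fun n : ℕ => t * s2K χ ((2 : ℝ) ^ (-(n : ℤ))) ((2 : ℝ) ^ (-(n : ℤ) + ((2 * n : ℕ) : ℤ))) t)
      Filter.atTop (nhds (- χ 0)) := by
  simp_rw [s2K_mul_eq χ _ _ ht]
  have hpow : ∀ n : ℕ, (2 : ℝ) ^ (-(n : ℤ) + ((2 * n : ℕ) : ℤ)) = 2 ^ n := by
    intro n
    have : (-(n : ℤ) + ((2 * n : ℕ) : ℤ)) = (n : ℤ) := by push_cast; ring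
    rw [this, zpow_natCast]
  have hpow' : ∀ n : ℕ, (2 : ℝ) ^ (-(n : ℤ)) = (1 / 2) ^ n := by
    intro n
    rw [zpow_neg, zpow_natCast, one_div, inv_pow]
  simp_rw [hpow, hpow']
  have h1 : Filter.Tendsto (fun n : ℕ => χ ((1 / 2 : ℝ) ^ n * t)) Filter.atTop (nhds (χ 0)) := by
    have h0 : Filter.Tendsto (fun n : ℕ => (1 / 2 : ℝ) ^ n * t) Filter.atTop (nhds (0 * t)) :=
      (tendsto_pow_atTop_nhds_zero_of_lt_one (by norm_num) (by norm_num)).mul_const t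
    rw [zero_mul] at h0
    exact (h.chi_smooth.continuous.tendsto 0).comp h0
  have h2 : Filter.Tendsto (fun n : ℕ => χ ((2 : ℝ) ^ n * t)) Filter.atTop (nhds 0) := by
    apply tendsto_const_nhds.congr'
    have hinf : Filter.Tendsto (fun n : ℕ => (2 : ℝ) ^ n) Filter.atTop Filter.atTop :=
      tendsto_pow_atTop_atTop_of_one_lt (by norm_num)
    filter_upwards [hinf.eventually_gt_atTop (1 / |t|)] with n hn
    symm
    apply s2_chi_zero_of_lt h
    rw [abs_mul, abs_of_pos (by positivity : (0 : ℝ) < 2 ^ n)]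
    rw [div_lt_iff₀ (abs_pos.2 ht)] at hn
    linarith
  have := h2.sub h1
  simpa using this

end Claimed.Agent.R258
end

/-! ## Part Dual -/

/-
Row 258, block [S2] (outer.tex, architect helper145), package P-S2-DUAL.

Duality: a bound for the four-linear form `s2Lam k` on the class `BddCS` (slot 0 bounded by one) gives the `L¹` bound of the trilinear operator `s2T k` for
bounded measurable inputs (in particular Schwartz functions).  `k` is bounded, measurable, compactly supported.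

PROOF NOTES.
* `s2T_measurable`: `(x,t) ↦ k t * (f₁(x+t) f₂(x+2t) f₃(x+3t))` is jointly measurable; `StronglyMeasurable.integral_prod_right'` (`.measurable`).
* `s2_dual`: let `T = s2T k f₁ f₂ f₃`, `|T x| ≤ 2 Rk Bk B₁ B₂ B₃`.  Fix `R : ℕ`.  `g₀ = (Icc (-R) R).indicator (fun x => conj (T x) / ‖T x‖)` is `BddCS`
  (`s2_bddcs_indicator`), `‖g₀ x‖ ≤ 1`, `g₀ x * T x = ‖T x‖` on `Icc (-R) R`.  With `R' = R + 3 Rk` and `g j = (Icc (-R') R').indicator f_j` :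
  `∫ x in Icc (-R) R, ‖T x‖ = ∫ x, g₀ x * T x = ∫ x, ∫ t, k t * (g₀ x f₁(x+t) f₂(x+2t) f₃(x+3t)) = s2Lam k ![g₀, g 1, g 2, g 3]`
  (`integral_prod` for the integrable = bounded, measurable, boundedly supported integrand; the truncations do not change the integrand as
  `|x| ≤ R`, `|t| ≤ Rk`; `Fin.prod_univ_four`).  `eLpNorm (indicator) ≤ eLpNorm` (`eLpNorm_indicator_le`).  So
  `∫⁻ x in Icc (-R) R, ‖T x‖ₑ = ofReal (∫ ..) ≤ B * ...` (`ofReal_integral_norm_eq_lintegral_enorm`).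
  Finally `∫⁻ x, ‖T x‖ₑ = ⨆ R, ∫⁻ x in Icc (-R) R, ..` (monotone convergence: `lintegral_iSup` for the indicators, or
  `setLIntegral_iUnion_of_directed`/`Monotone.measure_iUnion` with `⋃ R, Icc (-R) R = univ`).
-/

section
open MeasureTheory
open scoped ENNReal ContDiff

namespace Claimed.Agent.R258

/-- the trilinear operator with kernel `k` -/
noncomputable def s2T (k : ℝ → ℝ) (f₁ f₂ f₃ : ℝ → ℂ) (x : ℝ) : ℂ :=
  ∫ t : ℝ, (k t : ℂ) * (f₁ (x + t) * f₂ (x + 2 * t) * f₃ (x + 3 * t))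

/-! ### duality -/

theorem s2T_integrand_measurable {k : ℝ → ℝ} (hkm : Measurable k) {f₁ f₂ f₃ : ℝ → ℂ} (h₁ : Measurable f₁)
    (h₂ : Measurable f₂) (h₃ : Measurable f₃) :
    Measurable (fun p : ℝ × ℝ =>
      (k p.2 : ℂ) * (f₁ (p.1 + p.2) * f₂ (p.1 + 2 * p.2) * f₃ (p.1 + 3 * p.2))) :=
  (Complex.measurable_ofReal.comp (hkm.comp measurable_snd)).mul
    (((h₁.comp (measurable_fst.add measurable_snd)).mul
      (h₂.comp (measurable_fst.add (measurable_snd.const_mul 2)))).mul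
      (h₃.comp (measurable_fst.add (measurable_snd.const_mul 3))))

theorem s2T_measurable {k : ℝ → ℝ} (hkm : Measurable k) {f₁ f₂ f₃ : ℝ → ℂ} (h₁ : Measurable f₁)
    (h₂ : Measurable f₂) (h₃ : Measurable f₃) : Measurable (s2T k f₁ f₂ f₃) := by
  have := (s2T_integrand_measurable hkm h₁ h₂ h₃).stronglyMeasurable.integral_prod_right' (ν := volume)
  exact this.measurable

/-- the conjugate sign `conj z / ‖z‖` -/
noncomputable def s2sgn (z : ℂ) : ℂ := (starRingEnd ℂ) z / (‖z‖ : ℂ)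

theorem s2sgn_norm_le (z : ℂ) : ‖s2sgn z‖ ≤ 1 := by
  unfold s2sgn
  rw [norm_div, RCLike.norm_conj, Complex.norm_real, norm_norm]
  exact div_self_le_one _

theorem s2sgn_mul (z : ℂ) : s2sgn z * z = (‖z‖ : ℂ) := by
  unfold s2sgn
  by_cases hz : z = 0
  · simp [hz]
  · have hn : (‖z‖ : ℂ) ≠ 0 := by
      exact_mod_cast (norm_pos_iff.2 hz).ne'
    rw [div_mul_eq_mul_div, Complex.conj_mul', div_eq_iff hn]
    ring

theorem s2sgn_measurable : Measurable s2sgn :=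
  Complex.continuous_conj.measurable.div (Complex.measurable_ofReal.comp measurable_norm)

theorem s2_dual_trunc {k : ℝ → ℝ} (hkm : Measurable k) {Bk : ℝ} (hkb : ∀ t, |k t| ≤ Bk) {Rk : ℝ}
    (hks : ∀ t, Rk < |t| → k t = 0) {B : ℝ≥0∞}
    (hB : ∀ g : Fin 4 → ℝ → ℂ, (∀ j, BddCS (g j)) → (∀ x, ‖g 0 x‖ ≤ 1) →
      ENNReal.ofReal ‖s2Lam k g‖ ≤
        B * (eLpNorm (g 1) 3 volume * eLpNorm (g 2) 3 volume * eLpNorm (g 3) 3 volume))
    {f₁ f₂ f₃ : ℝ → ℂ} (h₁ : Measurable f₁) (h₂ : Measurable f₂) (h₃ : Measurable f₃) {b : ℝ}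
    (hb₁ : ∀ x, ‖f₁ x‖ ≤ b) (hb₂ : ∀ x, ‖f₂ x‖ ≤ b) (hb₃ : ∀ x, ‖f₃ x‖ ≤ b) (R : ℝ) :
    ∫⁻ x in Set.Icc (-R) R, ‖s2T k f₁ f₂ f₃ x‖ₑ ≤
      B * (eLpNorm f₁ 3 volume * eLpNorm f₂ 3 volume * eLpNorm f₃ 3 volume) := by
  set T := s2T k f₁ f₂ f₃ with hT
  have hTm : Measurable T := s2T_measurable hkm h₁ h₂ h₃
  have hb0 : 0 ≤ b := (norm_nonneg _).trans (hb₁ 0)
  have hBk0 : 0 ≤ Bk := (abs_nonneg _).trans (hkb 0)
  set g₀ : ℝ → ℂ := (Set.Icc (-R) R).indicator (fun x => s2sgn (T x)) with hg₀def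
  have hg₀ : BddCS g₀ :=
    s2_bddcs_indicator (s2sgn_measurable.comp hTm) (B := 1) (fun x => s2sgn_norm_le _) R
  have hg₀1 : ∀ x, ‖g₀ x‖ ≤ 1 := fun x =>
    (norm_indicator_le_norm_self _ _).trans (s2sgn_norm_le _)
  set R' : ℝ := |R| + 3 * |Rk| with hR'
  set g : Fin 4 → ℝ → ℂ := ![g₀, (Set.Icc (-R') R').indicator f₁, (Set.Icc (-R') R').indicator f₂,
    (Set.Icc (-R') R').indicator f₃] with hg
  have hgB : ∀ j, BddCS (g j) := by
    intro j
    fin_cases j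
    · exact hg₀
    · exact s2_bddcs_indicator h₁ hb₁ R'
    · exact s2_bddcs_indicator h₂ hb₂ R'
    · exact s2_bddcs_indicator h₃ hb₃ R'
  set H : ℝ × ℝ → ℂ := fun p =>
    g₀ p.1 * ((k p.2 : ℂ) * (f₁ (p.1 + p.2) * f₂ (p.1 + 2 * p.2) * f₃ (p.1 + 3 * p.2))) with hH
  have hHm : Measurable H :=
    (hg₀.meas.comp measurable_fst).mul (s2T_integrand_measurable hkm h₁ h₂ h₃)
  -- the form is the integral of `H`
  have hLam : s2Lam k g = ∫ p : ℝ × ℝ, H p := by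
    unfold s2Lam
    refine integral_congr_ae (Filter.Eventually.of_forall fun p => ?_)
    simp only [Fin.prod_univ_four, hg, hH]
    simp only [Matrix.cons_val_zero, Matrix.cons_val_one, Matrix.cons_val]
    simp only [Fin.val_zero, Nat.cast_zero, zero_mul, add_zero, Fin.val_one, Nat.cast_one, one_mul,
      Fin.val_two, Nat.cast_ofNat]
    have h33 : (((3 : Fin 4) : ℕ) : ℝ) = 3 := by norm_num
    rw [h33]
    by_cases hx : p.1 ∈ Set.Icc (-R) R
    · by_cases hk : k p.2 = 0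
      · simp [hk]
      · have ht : |p.2| ≤ Rk := by
          by_contra hcon
          exact hk (hks _ (not_le.1 hcon))
        have ht' : |p.2| ≤ |Rk| := ht.trans (le_abs_self _)
        have hx' : |p.1| ≤ |R| := (abs_le.2 hx).trans (le_abs_self _)
        have hmem : ∀ c : ℝ, 0 ≤ c → c ≤ 3 → p.1 + c * p.2 ∈ Set.Icc (-R') R' := by
          intro c hc0 hc3
          rw [Set.mem_Icc, ← abs_le]
          calc |p.1 + c * p.2| ≤ |p.1| + |c * p.2| := abs_add_le _ _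
            _ = |p.1| + c * |p.2| := by rw [abs_mul, abs_of_nonneg hc0]
            _ ≤ |R| + 3 * |Rk| := by
                have : c * |p.2| ≤ 3 * |Rk| := mul_le_mul hc3 ht' (abs_nonneg _) (by norm_num)
                linarith
        have m1 := hmem 1 (by norm_num) (by norm_num)
        rw [one_mul] at m1
        rw [Set.indicator_of_mem m1, Set.indicator_of_mem (hmem 2 (by norm_num) (by norm_num)),
          Set.indicator_of_mem (hmem 3 (by norm_num) (by norm_num))]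
        ring
    · have : g₀ p.1 = 0 := Set.indicator_of_notMem hx _
      simp [this]
  -- integrability of `H`
  have hHint : Integrable H (volume.prod volume) := by
    set S : Set (ℝ × ℝ) := Set.Icc (-R) R ×ˢ Set.Icc (-|Rk|) |Rk| with hS
    have hsupp : Function.support H ⊆ S := by
      intro p hp
      have h1 : g₀ p.1 ≠ 0 := fun h0 => hp (by simp [hH, h0])
      have h2 : k p.2 ≠ 0 := fun h0 => hp (by simp [hH, h0])
      refine ⟨?_, ?_⟩
      · by_contra hcon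
        exact h1 (Set.indicator_of_notMem hcon _)
      · rw [Set.mem_Icc, ← abs_le]
        by_contra hcon
        exact h2 (hks _ ((le_abs_self _).trans_lt (not_le.1 hcon)))
    rw [← integrableOn_iff_integrable_of_support_subset hsupp]
    have hfin : (volume.prod volume) S ≠ ⊤ := by
      rw [hS, Measure.prod_prod]
      exact ENNReal.mul_ne_top (by simp) (by simp)
    refine Measure.integrableOn_of_bounded (M := 1 * (Bk * (b * b * b))) hfin
      hHm.aestronglyMeasurable (Filter.Eventually.of_forall fun p => ?_)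
    simp only [hH]
    rw [norm_mul, norm_mul, norm_mul, norm_mul, Complex.norm_real, Real.norm_eq_abs]
    gcongr
    · exact hg₀1 _
    · exact hkb _
    · exact hb₁ _
    · exact hb₂ _
    · exact hb₃ _
  -- the inner integral
  have hA : ∀ x, ∫ t, H (x, t) = (Set.Icc (-R) R).indicator (fun x => ((‖T x‖ : ℝ) : ℂ)) x := by
    intro x
    simp only [hH]
    rw [integral_const_mul]
    have : ∫ t : ℝ, (k t : ℂ) * (f₁ (x + t) * f₂ (x + 2 * t) * f₃ (x + 3 * t)) = T x := rfl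
    rw [this]
    by_cases hx : x ∈ Set.Icc (-R) R
    · rw [hg₀def, Set.indicator_of_mem hx, Set.indicator_of_mem hx, s2sgn_mul]
    · rw [hg₀def, Set.indicator_of_notMem hx, Set.indicator_of_notMem hx, zero_mul]
  have hAint : Integrable (fun x => (Set.Icc (-R) R).indicator (fun x => ((‖T x‖ : ℝ) : ℂ)) x) volume := by
    have := hHint.integral_prod_left
    simpa only [hA] using this
  have hLam2 : s2Lam k g = ((∫ x, (Set.Icc (-R) R).indicator (fun x => ‖T x‖) x : ℝ) : ℂ) := by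
    rw [hLam, Measure.volume_eq_prod, integral_prod H hHint]
    rw [← integral_complex_ofReal]
    refine integral_congr_ae (Filter.Eventually.of_forall fun x => ?_)
    simp only [hA]
    by_cases hx : x ∈ Set.Icc (-R) R
    · rw [Set.indicator_of_mem hx, Set.indicator_of_mem hx]
    · rw [Set.indicator_of_notMem hx, Set.indicator_of_notMem hx]; simp
  have hnn : 0 ≤ ∫ x, (Set.Icc (-R) R).indicator (fun x => ‖T x‖) x :=
    integral_nonneg fun x => Set.indicator_nonneg (fun _ _ => norm_nonneg _) x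
  have hnorm : ‖s2Lam k g‖ = ∫ x, ‖(Set.Icc (-R) R).indicator (fun x => ((‖T x‖ : ℝ) : ℂ)) x‖ := by
    rw [hLam2, Complex.norm_real, Real.norm_eq_abs, abs_of_nonneg hnn]
    refine integral_congr_ae (Filter.Eventually.of_forall fun x => ?_)
    simp only
    by_cases hx : x ∈ Set.Icc (-R) R
    · rw [Set.indicator_of_mem hx, Set.indicator_of_mem hx, Complex.norm_real, norm_norm]
    · rw [Set.indicator_of_notMem hx, Set.indicator_of_notMem hx, norm_zero]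
  have hlint : ∫⁻ x in Set.Icc (-R) R, ‖T x‖ₑ = ENNReal.ofReal ‖s2Lam k g‖ := by
    rw [hnorm, ofReal_integral_norm_eq_lintegral_enorm hAint, ← lintegral_indicator measurableSet_Icc]
    refine lintegral_congr fun x => ?_
    by_cases hx : x ∈ Set.Icc (-R) R
    · rw [Set.indicator_of_mem hx, Set.indicator_of_mem hx, ← ofReal_norm, ← ofReal_norm,
        Complex.norm_real, norm_norm]
    · rw [Set.indicator_of_notMem hx, Set.indicator_of_notMem hx, enorm_zero]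
  rw [hlint]
  refine (hB g hgB hg₀1).trans ?_
  have e1 : eLpNorm (g 1) 3 volume ≤ eLpNorm f₁ 3 volume := eLpNorm_indicator_le f₁
  have e2 : eLpNorm (g 2) 3 volume ≤ eLpNorm f₂ 3 volume := eLpNorm_indicator_le f₂
  have e3 : eLpNorm (g 3) 3 volume ≤ eLpNorm f₃ 3 volume := eLpNorm_indicator_le f₃
  gcongr

theorem s2_dual {k : ℝ → ℝ} (hkm : Measurable k) {Bk : ℝ} (hkb : ∀ t, |k t| ≤ Bk) {Rk : ℝ}
    (hks : ∀ t, Rk < |t| → k t = 0) {B : ℝ≥0∞}
    (hB : ∀ g : Fin 4 → ℝ → ℂ, (∀ j, BddCS (g j)) → (∀ x, ‖g 0 x‖ ≤ 1) →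
      ENNReal.ofReal ‖s2Lam k g‖ ≤
        B * (eLpNorm (g 1) 3 volume * eLpNorm (g 2) 3 volume * eLpNorm (g 3) 3 volume))
    {f₁ f₂ f₃ : ℝ → ℂ} (h₁ : Measurable f₁) (h₂ : Measurable f₂) (h₃ : Measurable f₃) {b : ℝ}
    (hb₁ : ∀ x, ‖f₁ x‖ ≤ b) (hb₂ : ∀ x, ‖f₂ x‖ ≤ b) (hb₃ : ∀ x, ‖f₃ x‖ ≤ b) :
    ∫⁻ x, ‖s2T k f₁ f₂ f₃ x‖ₑ ≤
      B * (eLpNorm f₁ 3 volume * eLpNorm f₂ 3 volume * eLpNorm f₃ 3 volume) := by
  have hU : (⋃ n : ℕ, Set.Icc (-(n : ℝ)) n) = Set.univ := by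
    rw [Set.eq_univ_iff_forall]
    intro x
    obtain ⟨n, hn⟩ := exists_nat_ge |x|
    exact Set.mem_iUnion.2 ⟨n, abs_le.1 hn⟩
  have hd : Directed (· ⊆ ·) (fun n : ℕ => Set.Icc (-(n : ℝ)) n) := by
    refine Monotone.directed_le fun m n hmn => ?_
    have : (m : ℝ) ≤ n := by exact_mod_cast hmn
    exact Set.Icc_subset_Icc (by linarith) this
  rw [← setLIntegral_univ, ← hU, setLIntegral_iUnion_of_directed _ hd]
  exact iSup_le fun n => s2_dual_trunc hkm hkb hks hB h₁ h₂ h₃ hb₁ hb₂ hb₃ n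

end Claimed.Agent.R258
end

/-! ## Part PVgen -/

/-
Row 258, block [S2] (outer.tex, architect helper145), package P-S2-PVGEN (Mathlib only): principal values of integrable Lipschitz functions.

PROOF NOTES.  `G : ℝ → ℂ` integrable and Lipschitz, `D t = (G t - G (-t)) / t`.
* `s2_pv_integrableOn`: on `Ioc 0 1` : `‖D t‖ ≤ 2 L` (`‖G t - G (-t)‖ ≤ L * |2 t|`), measurable (continuous on `Ioi 0`, or `Measurable.div`); on `Ioi 1` : `‖D t‖ ≤ ‖G t‖ + ‖G (-t)‖`,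
  integrable (`Integrable.comp_neg`).  `Ioi 0 = Ioc 0 1 ∪ Ioi 1`.
* `s2_pv_split`: for measurable `h` with `h G` integrable...: concretely, for `ε > 0`, `{t | ε < |t|} = Ioi ε ∪ Iio (-ε)` (disjoint), `G t / t` is integrable there
  (`‖G t / t‖ ≤ ‖G t‖ / ε`), `∫_{Iio (-ε)} G t / t = - ∫_{Ioi ε} G (-t) / t` (`integral_comp_neg_Ioi`/`integral_comp_neg_Iio`), so the truncated integral equals `∫_{Ioi ε} D`.
* `s2_pv_tendsto`: `∫_{Ioi ε} D → ∫_{Ioi 0} D` as `ε → 0+`: `∫_{Ioi 0} - ∫_{Ioi ε} = ∫_{Ioc 0 ε} D`, of norm `≤ 2 L ε`; or dominated convergence for the indicators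
  (`tendsto_setIntegral_of_antitone`-type lemmas, `intervalIntegral.integral_Ioi..`, `continuousWithinAt_primitive`).
* `s2_odd_kernel`: `∫ k G = ∫_{Ioi 0} k G + ∫_{Iic 0} k G`, second `= ∫_{Ioi 0} k(-t) G(-t) = - ∫_{Ioi 0} k(t) G(-t)` (the point `0` is null), and `k t (G t - G(-t)) = (t k t) D t` for `t > 0`.
* `s2_pv_kernel_limit`: `s2_odd_kernel` + dominated convergence (`tendsto_integral_of_dominated_convergence` on `volume.restrict (Ioi 0)`, bound `M ‖D t‖`).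
-/

section
open MeasureTheory Filter Topology
open scoped ENNReal ContDiff NNReal

namespace Claimed.Agent.R258

theorem s2_pv_meas {G : ℝ → ℂ} (hGm : Measurable G) :
    Measurable (fun t : ℝ => (G t - G (-t)) / (t : ℂ)) :=
  (hGm.sub (hGm.comp measurable_neg)).div Complex.measurable_ofReal

theorem s2_pv_bound {G : ℝ → ℂ} {L : ℝ≥0} (hL : LipschitzWith L G) {t : ℝ} (ht : 0 < t) :
    ‖(G t - G (-t)) / (t : ℂ)‖ ≤ 2 * L := by
  rw [norm_div, Complex.norm_real, Real.norm_eq_abs, abs_of_pos ht, div_le_iff₀ ht]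
  have := hL.dist_le_mul t (-t)
  rw [dist_eq_norm, Real.dist_eq] at this
  have h2 : |t - -t| = 2 * t := by
    rw [sub_neg_eq_add, ← two_mul, abs_of_pos (by positivity)]
  rw [h2] at this
  linarith

theorem s2_pv_integrableOn {G : ℝ → ℂ} (hG : Integrable G volume) {L : ℝ≥0} (hL : LipschitzWith L G) :
    IntegrableOn (fun t : ℝ => (G t - G (-t)) / (t : ℂ)) (Set.Ioi 0) volume := by
  have hGm : Measurable G := hL.continuous.measurable
  have hm := s2_pv_meas hGm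
  rw [← Set.Ioc_union_Ioi_eq_Ioi (zero_le_one' ℝ)]
  refine IntegrableOn.union ?_ ?_
  · refine Measure.integrableOn_of_bounded (M := 2 * L) (by simp) hm.aestronglyMeasurable ?_
    exact ae_restrict_of_forall_mem measurableSet_Ioc fun t ht => s2_pv_bound hL ht.1
  · have hdom : Integrable (fun t : ℝ => ‖G t‖ + ‖G (-t)‖) (volume.restrict (Set.Ioi 1)) :=
      (hG.norm.add hG.comp_neg.norm).integrableOn
    refine hdom.mono' hm.aestronglyMeasurable ?_
    refine ae_restrict_of_forall_mem measurableSet_Ioi fun t ht => ?_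
    have ht1 : (1 : ℝ) < t := ht
    rw [norm_div, Complex.norm_real, Real.norm_eq_abs, abs_of_pos (by linarith), div_le_iff₀ (by linarith)]
    have h1 : ‖G t - G (-t)‖ ≤ ‖G t‖ + ‖G (-t)‖ := norm_sub_le _ _
    have h2 : 0 ≤ ‖G t‖ + ‖G (-t)‖ := by positivity
    nlinarith

theorem s2_div_integrableOn {G : ℝ → ℂ} (hG : Integrable G volume) {ε : ℝ} (hε : 0 < ε) {s : Set ℝ}
    (hs : MeasurableSet s) (hsε : ∀ t ∈ s, ε ≤ |t|) :
    IntegrableOn (fun t : ℝ => G t / (t : ℂ)) s volume := by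
  have hdom : Integrable (fun t : ℝ => ‖G t‖ / ε) (volume.restrict s) :=
    (hG.norm.div_const ε).integrableOn
  refine hdom.mono' ?_ ?_
  · exact (hG.aestronglyMeasurable.aemeasurable.div
      Complex.measurable_ofReal.aemeasurable).aestronglyMeasurable.restrict
  · refine ae_restrict_of_forall_mem hs fun t ht => ?_
    rw [norm_div, Complex.norm_real, Real.norm_eq_abs]
    exact div_le_div_of_nonneg_left (norm_nonneg _) hε (hsε t ht)

theorem s2_pv_split {G : ℝ → ℂ} (hG : Integrable G volume) {ε : ℝ} (hε : 0 < ε) :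
    ∫ t in {t : ℝ | ε < |t|}, G t / (t : ℂ) = ∫ t in Set.Ioi ε, (G t - G (-t)) / (t : ℂ) := by
  have hset : {t : ℝ | ε < |t|} = Set.Iio (-ε) ∪ Set.Ioi ε := by
    ext t
    simp only [Set.mem_ofPred_eq, Set.mem_union, Set.mem_Iio, Set.mem_Ioi, lt_abs]
    constructor
    · rintro (h | h)
      · exact Or.inr h
      · exact Or.inl (by linarith)
    · rintro (h | h)
      · exact Or.inr (by linarith)
      · exact Or.inl h
  have hdisj : Disjoint (Set.Iio (-ε)) (Set.Ioi ε) := by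
    rw [Set.disjoint_left]
    intro t h1 h2
    simp only [Set.mem_Iio, Set.mem_Ioi] at h1 h2
    linarith
  have hI1 : IntegrableOn (fun t : ℝ => G t / (t : ℂ)) (Set.Iio (-ε)) volume :=
    s2_div_integrableOn hG hε measurableSet_Iio fun t ht => by
      have : t < -ε := ht
      rw [abs_of_neg (by linarith)]; linarith
  have hI2 : IntegrableOn (fun t : ℝ => G t / (t : ℂ)) (Set.Ioi ε) volume :=
    s2_div_integrableOn hG hε measurableSet_Ioi fun t ht => by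
      have : ε < t := ht
      rw [abs_of_pos (by linarith)]; linarith
  have hI3 : IntegrableOn (fun t : ℝ => G (-t) / (t : ℂ)) (Set.Ioi ε) volume :=
    s2_div_integrableOn hG.comp_neg hε measurableSet_Ioi fun t ht => by
      have : ε < t := ht
      rw [abs_of_pos (by linarith)]; linarith
  rw [hset, setIntegral_union hdisj measurableSet_Ioi hI1 hI2]
  have h1 : ∫ t in Set.Iio (-ε), G t / (t : ℂ) = ∫ t in Set.Ioi ε, -(G (-t) / (t : ℂ)) := by
    rw [← integral_Iic_eq_integral_Iio, ← integral_comp_neg_Ioi ε (fun t : ℝ => G t / (t : ℂ))]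
    refine integral_congr_ae (Eventually.of_forall fun t => ?_)
    simp only [Complex.ofReal_neg, div_neg]
  have hI3n : IntegrableOn (fun t : ℝ => -(G (-t) / (t : ℂ))) (Set.Ioi ε) volume := hI3.neg
  rw [h1, ← integral_add hI3n hI2]
  refine integral_congr_ae (Eventually.of_forall fun t => ?_)
  simp only
  ring

theorem s2_pv_tendsto {G : ℝ → ℂ} (hG : Integrable G volume) {L : ℝ≥0} (hL : LipschitzWith L G) :
    Tendsto (fun ε : ℝ => ∫ t in {t : ℝ | ε < |t|}, G t / (t : ℂ)) (𝓝[>] (0 : ℝ))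
      (𝓝 (∫ t in Set.Ioi (0 : ℝ), (G t - G (-t)) / (t : ℂ))) := by
  have hD := s2_pv_integrableOn hG hL
  rw [tendsto_iff_norm_sub_tendsto_zero]
  have hlim : Tendsto (fun ε : ℝ => 2 * (L : ℝ) * ε) (𝓝[>] (0 : ℝ)) (𝓝 0) := by
    have : Tendsto (fun ε : ℝ => 2 * (L : ℝ) * ε) (𝓝 (0 : ℝ)) (𝓝 (2 * (L : ℝ) * 0)) :=
      tendsto_const_nhds.mul tendsto_id
    rw [mul_zero] at this
    exact this.mono_left nhdsWithin_le_nhds
  refine squeeze_zero' (Eventually.of_forall fun ε => norm_nonneg _) ?_ hlim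
  filter_upwards [self_mem_nhdsWithin] with ε hε
  have hε0 : (0 : ℝ) < ε := hε
  rw [s2_pv_split hG hε0]
  have hsplit : ∫ t in Set.Ioi (0 : ℝ), (G t - G (-t)) / (t : ℂ) =
      (∫ t in Set.Ioc 0 ε, (G t - G (-t)) / (t : ℂ)) + ∫ t in Set.Ioi ε, (G t - G (-t)) / (t : ℂ) := by
    rw [← Set.Ioc_union_Ioi_eq_Ioi hε0.le]
    refine setIntegral_union ?_ measurableSet_Ioi (hD.mono_set ?_) (hD.mono_set ?_)
    · rw [Set.disjoint_left]
      intro t h1 h2
      exact absurd h1.2 (not_le.2 h2)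
    · exact Set.Ioc_subset_Ioi_self
    · exact Set.Ioi_subset_Ioi hε0.le
  rw [hsplit, sub_add_cancel_right, norm_neg]
  have := norm_setIntegral_le_of_norm_le_const (μ := volume) (s := Set.Ioc 0 ε) (C := 2 * (L : ℝ))
    (f := fun t : ℝ => (G t - G (-t)) / (t : ℂ)) (by simp) (fun t ht => s2_pv_bound hL ht.1)
  simpa [Measure.real, hε0.le] using this

theorem s2_odd_kernel {G : ℝ → ℂ} (hG : Integrable G volume) {k : ℝ → ℝ} (hkm : Measurable k)
    {B : ℝ} (hkb : ∀ t, |k t| ≤ B) (hodd : ∀ t, k (-t) = - k t) :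
    ∫ t, (k t : ℂ) * G t = ∫ t in Set.Ioi (0 : ℝ), ((t * k t : ℝ) : ℂ) * ((G t - G (-t)) / (t : ℂ)) := by
  have hkG : Integrable (fun t : ℝ => (k t : ℂ) * G t) volume := by
    refine hG.bdd_mul (c := B) (Complex.measurable_ofReal.comp hkm).aestronglyMeasurable ?_
    exact Eventually.of_forall fun t => by
      rw [Complex.norm_real, Real.norm_eq_abs]; exact hkb t
  rw [← intervalIntegral.integral_Iic_add_Ioi (b := 0) hkG.integrableOn hkG.integrableOn]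
  have h1 : ∫ t in Set.Iic (0 : ℝ), (k t : ℂ) * G t = ∫ t in Set.Ioi (0 : ℝ), -((k t : ℂ) * G (-t)) := by
    have := integral_comp_neg_Ioi (0 : ℝ) (fun t : ℝ => (k t : ℂ) * G t)
    rw [neg_zero] at this
    rw [← this]
    refine integral_congr_ae (Eventually.of_forall fun t => ?_)
    simp only [hodd, Complex.ofReal_neg, neg_mul]
  have hkG' : Integrable (fun t : ℝ => (k t : ℂ) * G (-t)) volume := by
    refine hG.comp_neg.bdd_mul (c := B) (Complex.measurable_ofReal.comp hkm).aestronglyMeasurable ?_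
    exact Eventually.of_forall fun t => by
      rw [Complex.norm_real, Real.norm_eq_abs]; exact hkb t
  have hkGn : IntegrableOn (fun t : ℝ => -((k t : ℂ) * G (-t))) (Set.Ioi 0) volume :=
    hkG'.integrableOn.neg
  rw [h1, ← integral_add hkGn hkG.integrableOn]
  refine setIntegral_congr_fun measurableSet_Ioi fun t ht => ?_
  have ht0 : (t : ℂ) ≠ 0 := by
    have : (0 : ℝ) < t := ht
    exact_mod_cast this.ne'
  simp only [Complex.ofReal_mul]
  field_simp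
  ring

theorem s2_pv_kernel_limit {G : ℝ → ℂ} (hG : Integrable G volume) {L : ℝ≥0} (hL : LipschitzWith L G)
    {k : ℕ → ℝ → ℝ} (hkm : ∀ n, Measurable (k n)) (hkb : ∀ n, ∃ B : ℝ, ∀ t, |k n t| ≤ B)
    (hodd : ∀ n t, k n (-t) = - k n t) {M : ℝ} (hM : ∀ n t, |t * k n t| ≤ M) {c : ℝ}
    (hlim : ∀ t : ℝ, t ≠ 0 → Tendsto (fun n => t * k n t) atTop (𝓝 c)) :
    Tendsto (fun n => ∫ t, (k n t : ℂ) * G t) atTop
      (𝓝 ((c : ℂ) * ∫ t in Set.Ioi (0 : ℝ), (G t - G (-t)) / (t : ℂ))) := by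
  have hD := s2_pv_integrableOn hG hL
  have hGm : Measurable G := hL.continuous.measurable
  have hm := s2_pv_meas hGm
  have heq : ∀ n, ∫ t, (k n t : ℂ) * G t =
      ∫ t in Set.Ioi (0 : ℝ), ((t * k n t : ℝ) : ℂ) * ((G t - G (-t)) / (t : ℂ)) := by
    intro n
    obtain ⟨B, hB⟩ := hkb n
    exact s2_odd_kernel hG (hkm n) hB (hodd n)
  simp_rw [heq]
  rw [← integral_const_mul]
  refine tendsto_integral_of_dominated_convergence
    (fun t : ℝ => M * ‖(G t - G (-t)) / (t : ℂ)‖) ?_ (hD.norm.const_mul M) ?_ ?_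
  · intro n
    exact ((Complex.measurable_ofReal.comp (measurable_id.mul (hkm n))).mul hm).aestronglyMeasurable
  · intro n
    refine Eventually.of_forall fun t => ?_
    rw [norm_mul, Complex.norm_real, Real.norm_eq_abs]
    exact mul_le_mul_of_nonneg_right (hM n t) (norm_nonneg _)
  · refine ae_restrict_of_forall_mem measurableSet_Ioi fun t ht => ?_
    have ht0 : t ≠ 0 := (show (0 : ℝ) < t from ht).ne'
    have h1 : Tendsto (fun n => ((t * k n t : ℝ) : ℂ)) atTop (𝓝 (c : ℂ)) :=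
      (Complex.continuous_ofReal.tendsto c).comp (hlim t ht0)
    exact h1.mul_const _

end Claimed.Agent.R258
end

/-! ## Part PV -/

/-
Row 258, block [S2] (outer.tex, architect helper145), package P-S2-PV.

The principal value: existence of the limit in the frozen definition `Claims.C0426.trilinearHilbert` for Schwartz inputs, and convergence of the
truncated operators `s2T (K_n)` to `χ(0)` times it.

PROOF NOTES.  (General lemmas: `PVgen.lean`; kernels: `KFacts.lean`.)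
* `s2_G_integrable`, `s2_G_lipschitz`: a Schwartz function is bounded, integrable (`SchwartzMap.integrable`), with bounded derivative; `t ↦ f (x - c t)` likewise.  The product of three
  bounded Lipschitz functions is Lipschitz (`LipschitzWith.mul`-type: prove directly `‖abc - a'b'c'‖ ≤ ...`, or `lipschitzWith_of_nnnorm_deriv_le`); the product is dominated by
  `B² ‖f₁ (x - t)‖`, integrable (`Integrable.comp_sub_left`, `Integrable.bdd_mul`).
  Alternative: `t ↦ f₁(x-t) f₂(x-2t) f₃(x-3t)` is itself a Schwartz function (more work).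
* `s2_trilinear_eq`: `Filter.Tendsto.limUnder_eq`.
* `s2_pv_limit`: `s2T k f₁ f₂ f₃ x = ∫ k(t) G(-t) dt = ∫ k(-t) G(t) dt = - ∫ k G` (`integral_comp_neg`/`integral_neg_eq_self`, `s2K_odd`); `s2_pv_kernel_limit` with `c = - χ 0`
  (`s2K_measurable`, `s2K_bdd`, `s2K_mul_bdd`, `s2K_mul_tendsto`).
-/

section
open MeasureTheory Filter Topology
open scoped ENNReal ContDiff NNReal

namespace Claimed.Agent.R258

theorem s2_schwartz_lip (f : SchwartzMap ℝ ℂ) : ∃ L : ℝ≥0, LipschitzWith L f := by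
  obtain ⟨C, -, hC⟩ := f.decay 0 1
  refine ⟨C.toNNReal, lipschitzWith_of_nnnorm_fderiv_le (𝕜 := ℝ) f.differentiable fun x => ?_⟩
  have h1 := hC x
  rw [pow_zero, one_mul, norm_iteratedFDeriv_one] at h1
  rw [← NNReal.coe_le_coe, coe_nnnorm]
  exact h1.trans (Real.le_coe_toNNReal C)

theorem s2_schwartz_bd (f : SchwartzMap ℝ ℂ) : ∃ b : ℝ, ∀ x, ‖f x‖ ≤ b :=
  ⟨‖f.toBoundedContinuousFunction‖, fun x => f.toBoundedContinuousFunction.norm_coe_le_norm x⟩

theorem s2_lip_comp {f : ℝ → ℂ} {L : ℝ≥0} (hf : LipschitzWith L f) (x c : ℝ) :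
    ∃ L' : ℝ≥0, LipschitzWith L' (fun t : ℝ => f (x - c * t)) := by
  refine ⟨L * ‖c‖₊, LipschitzWith.of_dist_le_mul fun t s => ?_⟩
  have h1 := hf.dist_le_mul (x - c * t) (x - c * s)
  have h2 : dist (x - c * t) (x - c * s) = ‖c‖ * dist t s := by
    rw [Real.dist_eq, Real.dist_eq, Real.norm_eq_abs, ← abs_mul]
    rw [← abs_neg]
    congr 1
    ring
  rw [h2] at h1
  push_cast
  linarith

theorem s2_lip_mul {a b : ℝ → ℂ} {La Lb : ℝ≥0} {A B : ℝ} (ha : LipschitzWith La a)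
    (hb : LipschitzWith Lb b) (hA : ∀ t, ‖a t‖ ≤ A) (hB : ∀ t, ‖b t‖ ≤ B) :
    ∃ L : ℝ≥0, LipschitzWith L (fun t => a t * b t) := by
  refine ⟨A.toNNReal * Lb + La * B.toNNReal, LipschitzWith.of_dist_le_mul fun t s => ?_⟩
  have hA0 : 0 ≤ A := (norm_nonneg _).trans (hA 0)
  have hB0 : 0 ≤ B := (norm_nonneg _).trans (hB 0)
  have h1 := ha.dist_le_mul t s
  have h2 := hb.dist_le_mul t s
  rw [dist_eq_norm] at h1 h2 ⊢
  have h3 : a t * b t - a s * b s = a t * (b t - b s) + (a t - a s) * b s := by ring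
  rw [h3]
  push_cast
  rw [Real.coe_toNNReal A hA0, Real.coe_toNNReal B hB0]
  calc ‖a t * (b t - b s) + (a t - a s) * b s‖ ≤ ‖a t‖ * ‖b t - b s‖ + ‖a t - a s‖ * ‖b s‖ := by
        refine (norm_add_le _ _).trans ?_
        rw [norm_mul, norm_mul]
    _ ≤ A * (Lb * dist t s) + (La * dist t s) * B := by
        gcongr
        · exact hA t
        · exact hB s
    _ = (A * Lb + La * B) * dist t s := by ring

theorem s2_G_integrable (f₁ f₂ f₃ : SchwartzMap ℝ ℂ) (x : ℝ) :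
    Integrable (fun t : ℝ => f₁ (x - t) * f₂ (x - 2 * t) * f₃ (x - 3 * t)) volume := by
  obtain ⟨b₂, hb₂⟩ := s2_schwartz_bd f₂
  obtain ⟨b₃, hb₃⟩ := s2_schwartz_bd f₃
  have h1 : Integrable (fun t : ℝ => f₁ (x - t)) volume := f₁.integrable.comp_sub_left x
  have h2 : Integrable (fun t : ℝ => f₁ (x - t) * f₂ (x - 2 * t)) volume :=
    h1.mul_bdd (c := b₂) (by
      exact (f₂.continuous.comp (by fun_prop : Continuous fun t : ℝ => x - 2 * t)).aestronglyMeasurable)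
      (Eventually.of_forall fun t => hb₂ _)
  exact h2.mul_bdd (c := b₃) (by
      exact (f₃.continuous.comp (by fun_prop : Continuous fun t : ℝ => x - 3 * t)).aestronglyMeasurable)
      (Eventually.of_forall fun t => hb₃ _)

theorem s2_G_lipschitz (f₁ f₂ f₃ : SchwartzMap ℝ ℂ) (x : ℝ) :
    ∃ L : ℝ≥0, LipschitzWith L (fun t : ℝ => f₁ (x - t) * f₂ (x - 2 * t) * f₃ (x - 3 * t)) := by
  obtain ⟨b₁, hb₁⟩ := s2_schwartz_bd f₁
  obtain ⟨b₂, hb₂⟩ := s2_schwartz_bd f₂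
  obtain ⟨b₃, hb₃⟩ := s2_schwartz_bd f₃
  obtain ⟨L₁, hL₁⟩ := s2_schwartz_lip f₁
  obtain ⟨L₂, hL₂⟩ := s2_schwartz_lip f₂
  obtain ⟨L₃, hL₃⟩ := s2_schwartz_lip f₃
  obtain ⟨K₁, hK₁⟩ := s2_lip_comp hL₁ x 1
  obtain ⟨K₂, hK₂⟩ := s2_lip_comp hL₂ x 2
  obtain ⟨K₃, hK₃⟩ := s2_lip_comp hL₃ x 3
  simp only [one_mul] at hK₁
  obtain ⟨K₁₂, hK₁₂⟩ := s2_lip_mul hK₁ hK₂ (fun t => hb₁ _) (fun t => hb₂ _)
  have hb₁0 : 0 ≤ b₁ := (norm_nonneg _).trans (hb₁ 0)
  exact s2_lip_mul (A := b₁ * b₂) hK₁₂ hK₃ (fun t => by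
    rw [norm_mul]
    exact mul_le_mul (hb₁ _) (hb₂ _) (norm_nonneg _) hb₁0) (fun t => hb₃ _)

/-- the value of the frozen operator -/
theorem s2_trilinear_eq (f₁ f₂ f₃ : SchwartzMap ℝ ℂ) (x : ℝ) :
    Claims.C0426.trilinearHilbert f₁ f₂ f₃ x =
      ∫ t in Set.Ioi (0 : ℝ), (f₁ (x - t) * f₂ (x - 2 * t) * f₃ (x - 3 * t)
        - f₁ (x - -t) * f₂ (x - 2 * -t) * f₃ (x - 3 * -t)) / (t : ℂ) := by
  obtain ⟨L, hL⟩ := s2_G_lipschitz f₁ f₂ f₃ x
  exact (s2_pv_tendsto (s2_G_integrable f₁ f₂ f₃ x) hL).limUnder_eq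

/-- the truncated operators converge pointwise to `χ(0)` times the trilinear Hilbert transform -/
theorem s2_pv_limit {C0 : ℝ} {W : ℝ × ℝ → ℂ} {χ : ℝ → ℝ} (h : S2Ker C0 W χ) (f₁ f₂ f₃ : SchwartzMap ℝ ℂ)
    (x : ℝ) :
    Tendsto (fun n : ℕ =>
        s2T (s2K χ ((2 : ℝ) ^ (-(n : ℤ))) ((2 : ℝ) ^ (-(n : ℤ) + ((2 * n : ℕ) : ℤ)))) f₁ f₂ f₃ x) atTop
      (𝓝 ((χ 0 : ℂ) * Claims.C0426.trilinearHilbert f₁ f₂ f₃ x)) := by
  obtain ⟨L, hL⟩ := s2_G_lipschitz f₁ f₂ f₃ x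
  obtain ⟨M, hM⟩ := s2K_mul_bdd h
  have hG := s2_G_integrable f₁ f₂ f₃ x
  have hT : ∀ k : ℝ → ℝ, (∀ t, k (-t) = - k t) → s2T k f₁ f₂ f₃ x =
      - ∫ t : ℝ, (k t : ℂ) * (f₁ (x - t) * f₂ (x - 2 * t) * f₃ (x - 3 * t)) := by
    intro k hk
    rw [← integral_neg_eq_self (fun t : ℝ => (k t : ℂ) * (f₁ (x - t) * f₂ (x - 2 * t) * f₃ (x - 3 * t))),
      ← integral_neg]
    unfold s2T
    refine integral_congr_ae (Eventually.of_forall fun t => ?_)
    simp only [hk, Complex.ofReal_neg, mul_neg, sub_neg_eq_add, neg_mul, neg_neg]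
  have hlim := s2_pv_kernel_limit hG hL
    (k := fun n : ℕ => s2K χ ((2 : ℝ) ^ (-(n : ℤ))) ((2 : ℝ) ^ (-(n : ℤ) + ((2 * n : ℕ) : ℤ))))
    (fun n => s2K_measurable h _ _) (fun n => s2K_bdd h _ _) (fun n t => s2K_odd h _ _ t)
    (fun n t => hM _ _ t) (fun t ht => s2K_mul_tendsto h ht)
  have h2 := hlim.neg
  rw [s2_trilinear_eq]
  have h3 : -(((-χ 0 : ℝ) : ℂ) * ∫ t in Set.Ioi (0 : ℝ), (f₁ (x - t) * f₂ (x - 2 * t) * f₃ (x - 3 * t)
        - f₁ (x - -t) * f₂ (x - 2 * -t) * f₃ (x - 3 * -t)) / (t : ℂ)) =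
      (χ 0 : ℂ) * ∫ t in Set.Ioi (0 : ℝ), (f₁ (x - t) * f₂ (x - 2 * t) * f₃ (x - 3 * t)
        - f₁ (x - -t) * f₂ (x - 2 * -t) * f₃ (x - 3 * -t)) / (t : ℂ) := by
    rw [Complex.ofReal_neg, neg_mul, neg_neg]
  rw [← h3]
  exact h2.congr fun n => (hT _ (fun t => s2K_odd h _ _ t)).symm

end Claimed.Agent.R258
end

/-! ## Part Main -/

/-
Row 258, block [S2] (outer.tex, architect helper145).  TOP OF SECTION 2 (glue, proved):
Proposition 2.3 (`NormalizedGoal`, for the admissibility parameters of the model kernel) implies the frozen statement S0498.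
-/

section
open MeasureTheory Filter Topology
open scoped ENNReal ContDiff NNReal

namespace Claimed.Agent.R258

theorem s2_ker_exists : ∃ (C0 : ℝ) (W : ℝ × ℝ → ℂ) (χ : ℝ → ℝ), S2Ker C0 W χ := by
  obtain ⟨s, B, A, om, Φ, χ, h⟩ := s2_ker1_exists
  obtain ⟨C0, h0⟩ := s2_ker_of_ker1 h
  exact ⟨C0, _, χ, h0⟩

theorem s2_schwartz_bdd (f : SchwartzMap ℝ ℂ) : ∃ b : ℝ, ∀ x, ‖f x‖ ≤ b :=
  ⟨‖f.toBoundedContinuousFunction‖, fun x => f.toBoundedContinuousFunction.norm_coe_le_norm x⟩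

/-- Theorem 2.2 implies Theorem 1.1. -/
theorem s2_final {C0 : ℝ} {W : ℝ × ℝ → ℂ} {χ : ℝ → ℝ} (h : S2Ker C0 W χ) {q C : ℝ}
    (hq : 0 < q) (hq3 : q < 3) (hLB : ∀ N : ℕ, LocalBound (1 / 8) C0 q N C) :
    ∃ C' : ℝ, ∀ f₁ f₂ f₃ : SchwartzMap ℝ ℂ,
      eLpNorm (Claims.C0426.trilinearHilbert f₁ f₂ f₃) 1 volume ≤
        ENNReal.ofReal C' * (eLpNorm (f₁ : ℝ → ℂ) 3 volume * eLpNorm (f₂ : ℝ → ℂ) 3 volume *
          eLpNorm (f₃ : ℝ → ℂ) 3 volume) := by
  set B : ℝ≥0∞ := 3 * (ENNReal.ofReal C * mxCp (3 / q)) with hB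
  have hBtop : B ≠ ⊤ := by
    rw [hB]
    exact ENNReal.mul_ne_top (by norm_num) (ENNReal.mul_ne_top ENNReal.ofReal_ne_top ENNReal.coe_ne_top)
  have hχ : 0 < |χ 0| := abs_pos.2 h.chi_zero
  refine ⟨B.toReal / |χ 0|, fun f₁ f₂ f₃ => ?_⟩
  set P : ℝ≥0∞ := eLpNorm (f₁ : ℝ → ℂ) 3 volume * eLpNorm (f₂ : ℝ → ℂ) 3 volume *
    eLpNorm (f₃ : ℝ → ℂ) 3 volume with hP
  set k : ℕ → ℝ → ℝ := fun n => s2K χ ((2 : ℝ) ^ (-(n : ℤ))) ((2 : ℝ) ^ (-(n : ℤ) + ((2 * n : ℕ) : ℤ)))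
    with hk
  obtain ⟨b₁, hb₁⟩ := s2_schwartz_bdd f₁
  obtain ⟨b₂, hb₂⟩ := s2_schwartz_bdd f₂
  obtain ⟨b₃, hb₃⟩ := s2_schwartz_bdd f₃
  set b : ℝ := max b₁ (max b₂ b₃) with hb
  have hm₁ : Measurable (f₁ : ℝ → ℂ) := f₁.continuous.measurable
  have hm₂ : Measurable (f₂ : ℝ → ℂ) := f₂.continuous.measurable
  have hm₃ : Measurable (f₃ : ℝ → ℂ) := f₃.continuous.measurable
  -- the truncated operators
  have hn : ∀ n : ℕ, ∫⁻ x, ‖s2T (k n) f₁ f₂ f₃ x‖ₑ ≤ B * P := by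
    intro n
    obtain ⟨Bk, hBk⟩ := s2K_bdd h ((2 : ℝ) ^ (-(n : ℤ))) ((2 : ℝ) ^ (-(n : ℤ) + ((2 * n : ℕ) : ℤ)))
    have hab : (2 : ℝ) ^ (-(n : ℤ)) ≤ (2 : ℝ) ^ (-(n : ℤ) + ((2 * n : ℕ) : ℤ)) :=
      zpow_le_zpow_right₀ (by norm_num) (by simp)
    exact s2_dual (s2K_measurable h _ _) hBk (s2K_supp h (by positivity) hab)
      (fun g hg h0 => s2_model_bound h hq hq3 hLB g hg h0 (-(n : ℤ)) (2 * n)) hm₁ hm₂ hm₃
      (b := b) (fun x => (hb₁ x).trans (le_max_left _ _))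
      (fun x => (hb₂ x).trans ((le_max_left _ _).trans (le_max_right _ _)))
      (fun x => (hb₃ x).trans ((le_max_right _ _).trans (le_max_right _ _)))
  -- Fatou
  have hlim : ∀ x, liminf (fun n => ‖s2T (k n) f₁ f₂ f₃ x‖ₑ) atTop =
      ‖(χ 0 : ℂ)‖ₑ * ‖Claims.C0426.trilinearHilbert f₁ f₂ f₃ x‖ₑ := by
    intro x
    rw [← enorm_mul]
    exact ((s2_pv_limit h f₁ f₂ f₃ x).enorm).liminf_eq
  have hfatou : ∫⁻ x, ‖(χ 0 : ℂ)‖ₑ * ‖Claims.C0426.trilinearHilbert f₁ f₂ f₃ x‖ₑ ≤ B * P := by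
    calc ∫⁻ x, ‖(χ 0 : ℂ)‖ₑ * ‖Claims.C0426.trilinearHilbert f₁ f₂ f₃ x‖ₑ
        = ∫⁻ x, liminf (fun n => ‖s2T (k n) f₁ f₂ f₃ x‖ₑ) atTop := by
          simp only [hlim]
      _ ≤ liminf (fun n => ∫⁻ x, ‖s2T (k n) f₁ f₂ f₃ x‖ₑ) atTop :=
          lintegral_liminf_le fun n => (s2T_measurable (s2K_measurable h _ _) hm₁ hm₂ hm₃).enorm
      _ ≤ liminf (fun _ : ℕ => B * P) atTop := liminf_le_liminf (Eventually.of_forall hn)
      _ = B * P := liminf_const _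
  rw [lintegral_const_mul' _ _ enorm_ne_top] at hfatou
  rw [eLpNorm_one_eq_lintegral_enorm]
  have hχe : ‖(χ 0 : ℂ)‖ₑ = ENNReal.ofReal |χ 0| := by
    rw [← ofReal_norm, Complex.norm_real, Real.norm_eq_abs]
  rw [hχe] at hfatou
  have hχ0 : ENNReal.ofReal |χ 0| ≠ 0 := by
    simpa [ENNReal.ofReal_eq_zero, not_le] using hχ
  rw [ENNReal.ofReal_div_of_pos hχ, ENNReal.ofReal_toReal hBtop]
  calc ∫⁻ x, ‖Claims.C0426.trilinearHilbert f₁ f₂ f₃ x‖ₑ
      = (ENNReal.ofReal |χ 0|)⁻¹ * (ENNReal.ofReal |χ 0| *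
          ∫⁻ x, ‖Claims.C0426.trilinearHilbert f₁ f₂ f₃ x‖ₑ) := by
        rw [← mul_assoc, ENNReal.inv_mul_cancel hχ0 ENNReal.ofReal_ne_top, one_mul]
    _ ≤ (ENNReal.ofReal |χ 0|)⁻¹ * (B * P) := by gcongr
    _ = B / ENNReal.ofReal |χ 0| * P := by
        rw [ENNReal.div_eq_inv_mul, ← mul_assoc]

/-- **Section 2**: Proposition 2.3 implies the frozen statement S0498. -/
theorem s2_main (h : ∀ c0 C0 : ℝ, 0 < c0 → 1 ≤ C0 → NormalizedGoal c0 C0) :
    ∃ C : ℝ, ∀ f₁ f₂ f₃ : SchwartzMap ℝ ℂ,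
      eLpNorm (Claims.C0426.trilinearHilbert f₁ f₂ f₃) 1 volume ≤
        ENNReal.ofReal C * (eLpNorm (f₁ : ℝ → ℂ) 3 volume * eLpNorm (f₂ : ℝ → ℂ) 3 volume *
          eLpNorm (f₃ : ℝ → ℂ) 3 volume) := by
  obtain ⟨C0, W, χ, hK⟩ := s2_ker_exists
  obtain ⟨q, hq2, hq3, C, _, hLB⟩ := s2_uniform (by norm_num : (0 : ℝ) < 1 / 8) (h (1 / 8) C0 (by norm_num) hK.C0_ge)
  exact s2_final hK (by linarith) hq3 hLB

end Claimed.Agent.R258
end
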